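import Vale.Agent.P271.H207.CountLead

/-!
# P271 / COUNT: truncated version of the counting inequality

The orders `|ξ|` are replaced by `min |ξ| E`, `E` at least the number of exponents.
-/

set_option linter.all false

open Finset

namespace Vale.Agent.P271.H207

open Vale.Agent.P271.F507

/-- exponents of degree `> E` can be replaced by exponents of degree `≤ E` -/
theorem exists_replace {d : ℕ} (hd : 0 < d) (A : Finset (Fin d → ℕ)) (E : ℕ) (hE : A.card ≤ E) :
    ∃ A' : Finset (Fin d → ℕ), A'.card = A.card ∧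
      ∑ ξ ∈ A', deg ξ ≤ ∑ ξ ∈ A, min (deg ξ) E := by
  classical
  set B := A.filter (fun ξ => deg ξ ≤ E) with hB
  set C := A.filter (fun ξ => ¬ deg ξ ≤ E) with hC
  have hBC : B.card + C.card = A.card := Finset.card_filter_add_card_filter_not _
  set i0 : Fin d := ⟨0, hd⟩
  set T : Finset (Fin d → ℕ) := (range (E + 1)).image (fun k => Pi.single i0 k) with hT
  have hTcard : T.card = E + 1 := by
    rw [hT, Finset.card_image_of_injective, card_range]
    intro a b h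
    have := congrFun h i0
    simpa using this
  have hTdeg : ∀ ξ ∈ T, deg ξ ≤ E := by
    intro ξ hξ
    obtain ⟨k, hk, rfl⟩ := Finset.mem_image.1 hξ
    have : deg (Pi.single i0 k : Fin d → ℕ) = k := by
      rw [deg, Finset.sum_pi_single']
      simp
    rw [this]
    have := Finset.mem_range.1 hk
    omega
  have hle : C.card ≤ (T \ B).card := by
    have := Finset.le_card_sdiff B T
    omega
  obtain ⟨C', hC'T, hC'card⟩ := Finset.exists_subset_card_eq hle
  have hdisj : Disjoint B C' := by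
    rw [Finset.disjoint_left]
    intro ξ h1 h2
    exact (Finset.mem_sdiff.1 (hC'T h2)).2 h1
  refine ⟨B ∪ C', ?_, ?_⟩
  · rw [Finset.card_union_of_disjoint hdisj, hC'card, hBC]
  · rw [Finset.sum_union hdisj]
    have h1 : ∑ ξ ∈ A, min (deg ξ) E = ∑ ξ ∈ B, min (deg ξ) E + ∑ ξ ∈ C, min (deg ξ) E :=
      (Finset.sum_filter_add_sum_filter_not A _ _).symm
    rw [h1]
    have h2 : ∑ ξ ∈ B, deg ξ = ∑ ξ ∈ B, min (deg ξ) E :=
      Finset.sum_congr rfl fun ξ hξ => by rw [min_eq_left (Finset.mem_filter.1 hξ).2]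
    have h3 : ∑ ξ ∈ C', deg ξ ≤ C'.card * E := by
      rw [← smul_eq_mul]
      exact Finset.sum_le_card_nsmul _ _ _ fun ξ hξ => hTdeg ξ (Finset.mem_sdiff.1 (hC'T hξ)).1
    have h4 : ∑ ξ ∈ C, min (deg ξ) E = C.card * E := by
      rw [← smul_eq_mul, ← Finset.sum_const]
      refine Finset.sum_congr rfl fun ξ hξ => ?_
      have := (Finset.mem_filter.1 hξ).2
      rw [min_eq_right (by omega)]
    rw [h4, h2]
    rw [hC'card] at h3
    omega

/-- the simplex minimises the sum of the truncated degrees -/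
theorem sum_min_deg_ge {d : ℕ} (hd : 0 < d) (A : Finset (Fin d → ℕ)) (E : ℕ) (hE : A.card ≤ E)
    {R : ℝ} (hR : 0 ≤ R) (hRd : R ^ d = (d.factorial : ℝ) * A.card) :
    (d : ℝ) / (d + 1) * R * A.card - (d + 1) * A.card ≤ ∑ ξ ∈ A, ((min (deg ξ) E : ℕ) : ℝ) := by
  obtain ⟨A', h1, h2⟩ := exists_replace hd A E hE
  have h3 := sum_deg_ge A' hR (by rw [h1]; exact hRd)
  rw [h1] at h3
  refine h3.trans ?_
  exact_mod_cast h2

/-- the counting lemma with truncated degrees -/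
theorem count_main_trunc {d : ℕ} (hd : 0 < d) {ι : Type*} (s : Finset ι)
    (A : ℕ → ι → Finset (Fin d → ℕ)) (B : Finset (Fin d → ℕ)) (hB : B.Nonempty) (ρ : ℕ)
    (hAB : ∀ M, ∀ a ∈ s, ∀ ξ ∈ A M a, ∀ η ∈ B, ∀ ε : Fin d → ℕ, (∀ i, ε i ≤ 1) →
      ξ + η + ε ∈ A (M + ρ) a)
    (K m : ℕ) (hK : K * ρ ≤ m) (E : ℕ) (hE : ∀ a ∈ s, (A m a).card ≤ E) :
    (d : ℝ) * ((d.factorial : ℝ) ^ ((1 : ℝ) / d)) * ((B.card : ℝ) ^ ((1 : ℝ) / d)) *
        ∑ k ∈ range K, ∑ a ∈ s, ((A (m - (k + 1) * ρ) a).card : ℝ)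
      - (d + 1) * ∑ a ∈ s, ((A m a).card : ℝ) ≤
    ∑ a ∈ s, ∑ ξ ∈ A m a, ((min (deg ξ) E : ℕ) : ℝ) := by
  have hdR : (0 : ℝ) < d := by exact_mod_cast hd
  set b : ℝ := (B.card : ℝ) ^ ((1 : ℝ) / d) with hb
  have hb0 : 0 ≤ b := by positivity
  set f : ℝ := (d.factorial : ℝ) ^ ((1 : ℝ) / d) with hf
  have hf0 : 0 ≤ f := by positivity
  have hfd : f ^ d = d.factorial := by
    rw [hf, ← Real.rpow_natCast, ← Real.rpow_mul (by positivity)]
    rw [one_div, inv_mul_cancel₀ hdR.ne', Real.rpow_one]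
  have main : ∀ a ∈ s,
      (d : ℝ) * f * b * ∑ k ∈ range K, ((A (m - (k + 1) * ρ) a).card : ℝ)
        - (d + 1) * ((A m a).card : ℝ) ≤ ∑ ξ ∈ A m a, ((min (deg ξ) E : ℕ) : ℝ) := by
    intro a ha
    set n : ℕ → ℝ := fun M => ((A M a).card : ℝ) with hn
    set y : ℕ → ℝ := fun M => ((A M a).card : ℝ) ^ ((1 : ℝ) / d) with hy
    have hy0 : ∀ M, 0 ≤ y M := fun M => by simp only [hy]; positivity
    have hyn : ∀ M, y M ^ d = n M := by
      intro M
      simp only [hy, hn]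
      rw [← Real.rpow_natCast, ← Real.rpow_mul (by positivity)]
      rw [one_div, inv_mul_cancel₀ hdR.ne', Real.rpow_one]
    have hstep : ∀ M, 0 < n M → y M + b ≤ y (M + ρ) := by
      intro M hM
      have hne : (A M a).Nonempty := by
        rw [← Finset.card_pos]
        simp only [hn] at hM
        exact_mod_cast hM
      exact discrete_bm hd hne hB (hAB M a ha)
    have h1 := telescope n y hy0 hyn hd hb0 hstep K m hK
    have h2 := sum_min_deg_ge hd (A m a) E (hE a ha) (R := f * y m) (mul_nonneg hf0 (hy0 m))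
      (by rw [mul_pow, hfd, hyn m])
    have h3 : (d : ℝ) / (d + 1) * (f * y m) * ((A m a).card : ℝ) =
        (d : ℝ) / (d + 1) * f * y m ^ (d + 1) := by
      have : ((A m a).card : ℝ) = y m ^ d := (hyn m).symm
      rw [this, pow_succ]
      ring
    rw [h3] at h2
    have h4 : (d : ℝ) * f * b * ∑ k ∈ range K, n (m - (k + 1) * ρ) ≤
        (d : ℝ) / (d + 1) * f * y m ^ (d + 1) := by
      have h5 := mul_le_mul_of_nonneg_left h1 (show 0 ≤ (d : ℝ) / (d + 1) * f by positivity)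
      refine le_trans (le_of_eq ?_) h5
      field_simp
    linarith
  have h6 := Finset.sum_le_sum main
  refine le_trans (le_of_eq ?_) h6
  rw [Finset.sum_sub_distrib, Finset.sum_comm, ← Finset.mul_sum, ← Finset.mul_sum]

variable {k : Type*} [Field k] {d r : ℕ}

/-- the sum of the truncated orders of vanishing of a finite dimensional subspace -/
noncomputable def ordSumE (U : Submodule k (Fin r → MvPowerSeries (Fin d) k))
    [FiniteDimensional k U] (E : ℕ) : ℕ := ∑ γ ∈ (leads_finite U).toFinset, min (deg γ.2) E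

/-- **The counting inequality**, truncated (Part 2 (a)-(d)). -/
theorem count_leads_trunc (hd : 0 < d) {ι : Type*} (s : Finset ι) (r : ι → ℕ)
    (U : ℕ → (i : ι) → Submodule k (Fin (r i) → MvPowerSeries (Fin d) k))
    [∀ M i, FiniteDimensional k (U M i)]
    (G : ℕ → Submodule k (MvPowerSeries (Fin d) k)) [∀ M, FiniteDimensional k (G M)]
    (hmul : ∀ M M' : ℕ, ∀ i ∈ s, ∀ g ∈ G M', ∀ f ∈ U M i, (fun y => g * f y) ∈ U (M + M') i)
    (r0 r1 : ℕ) (hcube : ∀ ε : Fin d → ℕ, (∀ j, ε j ≤ 1) → ∃ g ∈ G r1, IsLead1 g ε)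
    (hG : G r0 ≠ ⊥) (K m : ℕ) (hK : K * (r0 + r1) ≤ m) (E : ℕ)
    (hE : ∀ i ∈ s, Module.finrank k (U m i) ≤ E) :
    (d : ℝ) * ((d.factorial : ℝ) ^ ((1 : ℝ) / d)) *
        ((Module.finrank k (G r0) : ℝ) ^ ((1 : ℝ) / d)) *
        ∑ j ∈ range K, ∑ i ∈ s, (Module.finrank k (U (m - (j + 1) * (r0 + r1)) i) : ℝ)
      - (d + 1) * ∑ i ∈ s, (Module.finrank k (U m i) : ℝ) ≤
    ∑ i ∈ s, (ordSumE (U m i) E : ℝ) := by
  classical
  set A : ℕ → (Σ i : ι, Fin (r i)) → Finset (Fin d → ℕ) := fun M a =>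
    ((leads_finite (U M a.1)).toFinset.filter (fun γ => γ.1 = a.2)).image (fun γ => γ.2) with hA
  set S : Finset (Σ i : ι, Fin (r i)) := s.sigma (fun i => Finset.univ) with hS
  have hmemA : ∀ M (a : Σ i : ι, Fin (r i)) (ξ : Fin d → ℕ),
      ξ ∈ A M a ↔ ∃ f ∈ U M a.1, IsLead f (a.2, ξ) := by
    intro M a ξ
    simp only [hA, Finset.mem_image, Finset.mem_filter, Set.Finite.mem_toFinset]
    constructor
    · rintro ⟨⟨y, ξ'⟩, ⟨⟨f, hf, hl⟩, hy⟩, rfl⟩
      simp only at hy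
      subst hy
      exact ⟨f, hf, hl⟩
    · rintro ⟨f, hf, hl⟩
      exact ⟨(a.2, ξ), ⟨⟨f, hf, hl⟩, rfl⟩, rfl⟩
  have hinj : ∀ (i : ι) (y : Fin (r i)) (M : ℕ),
      Set.InjOn (fun γ : Fin (r i) × (Fin d → ℕ) => γ.2)
        ((leads_finite (U M i)).toFinset.filter (fun γ => γ.1 = y) : Finset _) := by
    intro i y M γ hγ γ' hγ' h
    simp only [Finset.coe_filter, Set.mem_setOf_eq] at hγ hγ'
    exact Prod.ext (hγ.2.trans hγ'.2.symm) h
  have hcard : ∀ M, ∑ a ∈ S, ((A M a).card : ℝ) = ∑ i ∈ s, (Module.finrank k (U M i) : ℝ) := by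
    intro M
    rw [hS, Finset.sum_sigma]
    refine Finset.sum_congr rfl fun i _ => ?_
    rw [← card_leads (U M i)]
    have h1 : ∀ y : Fin (r i), (A M ⟨i, y⟩).card =
        ((leads_finite (U M i)).toFinset.filter (fun γ => γ.1 = y)).card := fun y =>
      Finset.card_image_of_injOn (hinj i y M)
    simp_rw [h1]
    rw [← Nat.cast_sum]
    congr 1
    exact (Finset.card_eq_sum_card_fiberwise (fun γ _ => Finset.mem_univ γ.1)).symm
  have hdeg : ∑ a ∈ S, ∑ ξ ∈ A m a, ((min (deg ξ) E : ℕ) : ℝ) =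
      ∑ i ∈ s, (ordSumE (U m i) E : ℝ) := by
    rw [hS, Finset.sum_sigma]
    refine Finset.sum_congr rfl fun i _ => ?_
    have h1 : ∀ y : Fin (r i), ∑ ξ ∈ A m ⟨i, y⟩, ((min (deg ξ) E : ℕ) : ℝ) =
        ∑ γ ∈ (leads_finite (U m i)).toFinset.filter (fun γ => γ.1 = y),
          ((min (deg γ.2) E : ℕ) : ℝ) := fun y =>
      Finset.sum_image (hinj i y m)
    simp_rw [h1]
    rw [ordSumE, Nat.cast_sum]
    exact Finset.sum_fiberwise (leads_finite (U m i)).toFinset (fun γ => γ.1)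
      (fun γ => ((min (deg γ.2) E : ℕ) : ℝ))
  have hcardE : ∀ a ∈ S, (A m a).card ≤ E := by
    rintro ⟨i, y⟩ ha
    have his : i ∈ s := (Finset.mem_sigma.1 ha).1
    calc (A m ⟨i, y⟩).card
        ≤ ((leads_finite (U m i)).toFinset.filter (fun γ => γ.1 = y)).card :=
          Finset.card_image_le
      _ ≤ (leads_finite (U m i)).toFinset.card := Finset.card_filter_le _ _
      _ = Module.finrank k (U m i) := card_leads _
      _ ≤ E := hE i his
  have hBne : (leads1_finite (G r0)).toFinset.Nonempty := by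
    obtain ⟨g, hg, hg0⟩ := Submodule.exists_mem_ne_zero_of_ne_bot hG
    obtain ⟨η, hη⟩ := exists_isLead1 hg0
    exact ⟨η, by simpa using ⟨g, hg, hη⟩⟩
  have hAB : ∀ M, ∀ a ∈ S, ∀ ξ ∈ A M a, ∀ η ∈ (leads1_finite (G r0)).toFinset,
      ∀ ε : Fin d → ℕ, (∀ i, ε i ≤ 1) → ξ + η + ε ∈ A (M + (r0 + r1)) a := by
    rintro M ⟨i, y⟩ ha ξ hξ η hη ε hε
    have his : i ∈ s := (Finset.mem_sigma.1 ha).1
    rw [hmemA] at hξ ⊢
    obtain ⟨f, hf, hl⟩ := hξ
    obtain ⟨g, hg, hgl⟩ := (Set.Finite.mem_toFinset _).1 hη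
    obtain ⟨g', hg', hgl'⟩ := hcube ε hε
    have h1 := IsLead.mul hgl hl
    have h2 := IsLead.mul hgl' h1
    refine ⟨fun y => g' * (g * f y), ?_, ?_⟩
    · have h3 := hmul (M + r0) r1 i his g' hg' _ (hmul M r0 i his g hg f hf)
      rwa [add_assoc] at h3
    · have : ξ + η + ε = ε + (η + ξ) := by
        rw [add_comm ξ η, add_comm ε]
      rw [this]
      exact h2
  have := count_main_trunc hd S A (leads1_finite (G r0)).toFinset hBne (r0 + r1) hAB K m hK E
    hcardE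
  rw [hcard, hdeg, card_leads1] at this
  simp_rw [hcard] at this
  exact this

end Vale.Agent.P271.H207
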