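import Vale.Agent.P271.H207.GrLex

/-!
# P271 / COUNT-(a): the counting inequality for a graded linear series with a filtration by ideals
-/

set_option linter.all false

open Finset Module

namespace Vale.Agent.P271.H207

open Vale.Agent.P271.F507 Vale.Agent.P271.Filt Vale.Agent.P271.Filt.Wt

/-- A graded linear series `V M ⊆ A` with a filtration `F M` of each `V M`, induced by ideals
`b a ⊇ bgt a` of `A`; `τ` = restriction to `W` followed by the Taylor expansion at a point; `θ a` =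
coordinates of `b a / bgt a` as a submodule of a free module. -/
structure GrRing (K A : Type*) [Field K] [CommRing A] [Algebra K A] (d : ℕ) where
  V : ℕ → Submodule K A
  fin : ∀ M, FiniteDimensional K (V M)
  mul_mem : ∀ M M' : ℕ, ∀ g ∈ V M', ∀ s ∈ V M, g * s ∈ V (M + M')
  b : ℝ → Submodule K A
  bgt : ℝ → Submodule K A
  b_mul : ∀ (a : ℝ) (g s : A), s ∈ b a → g * s ∈ b a
  F : ∀ M, Wt K (V M)
  mem_sub : ∀ (M : ℕ) (a : ℝ) (x : V M), x ∈ (F M).sub a ↔ (x : A) ∈ b a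
  mem_subGt : ∀ (M : ℕ) (a : ℝ) (x : V M), x ∈ (F M).subGt a ↔ (x : A) ∈ bgt a
  τ : A →ₐ[K] MvPowerSeries (Fin d) K
  r : ℝ → ℕ
  θ : ∀ a : ℝ, b a →ₗ[K] (Fin (r a) → MvPowerSeries (Fin d) K)
  ker : ∀ (a : ℝ) (x : b a), θ a x = 0 ↔ (x : A) ∈ bgt a
  θ_mul : ∀ (a : ℝ) (g : A) (s : b a), θ a ⟨g * s, b_mul a g s s.2⟩ = fun y => τ g * θ a s y

namespace GrRing

variable {K A : Type*} [Field K] [CommRing A] [Algebra K A] {d : ℕ} (D : GrRing K A d)

instance (M : ℕ) : FiniteDimensional K (D.V M) := D.fin M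

/-- the map from the step `(F M).sub a` to the ideal `b a` -/
def inc (M : ℕ) (a : ℝ) : (D.F M).sub a →ₗ[K] D.b a where
  toFun x := ⟨(x : D.V M), (D.mem_sub M a x).1 x.2⟩
  map_add' _ _ := rfl
  map_smul' _ _ := rfl

/-- coordinates of the graded pieces of `V M` -/
noncomputable def gr (M : ℕ) : GrData (D.F M) d where
  r := D.r
  θ a := (D.θ a).comp (D.inc M a)
  ker a x := by
    rw [LinearMap.comp_apply, D.ker, D.mem_subGt]
    rfl

/-- the image of `V M` in `k[[x]]` -/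
noncomputable def G (M : ℕ) : Submodule K (MvPowerSeries (Fin d) K) :=
  (D.V M).map D.τ.toLinearMap

instance (M : ℕ) : FiniteDimensional K (D.G M) := by
  unfold G; infer_instance

theorem mem_G {M : ℕ} {g : MvPowerSeries (Fin d) K} : g ∈ D.G M ↔ ∃ s ∈ D.V M, D.τ s = g :=
  Iff.rfl

/-- the image of the graded piece of weight `a` of `V M` in `k[[x]] ^ r` -/
noncomputable def UU (M : ℕ) (a : ℝ) : Submodule K (Fin (D.r a) → MvPowerSeries (Fin d) K) :=
  (D.gr M).U a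

instance finUU (M : ℕ) (a : ℝ) : FiniteDimensional K (D.UU M a) :=
  (D.gr M).finiteDimensional_U a

theorem mul_mem_U (M M' : ℕ) (a : ℝ) (g : MvPowerSeries (Fin d) K) (hg : g ∈ D.G M')
    (f : Fin (D.r a) → MvPowerSeries (Fin d) K) (hf : f ∈ D.UU M a) :
    (fun y => g * f y) ∈ D.UU (M + M') a := by
  obtain ⟨t, ht, rfl⟩ := D.mem_G.1 hg
  obtain ⟨x, hx, rfl⟩ := (D.gr M).mem_U.1 hf
  have hxb : (x : A) ∈ D.b a := (D.mem_sub M a x).1 hx
  have hprod : t * (x : A) ∈ D.V (M + M') := D.mul_mem M M' t ht x x.2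
  have hb : t * (x : A) ∈ D.b a := D.b_mul a t x hxb
  refine (D.gr (M + M')).mem_U.2 ⟨⟨t * x, hprod⟩, (D.mem_sub _ a _).2 hb, ?_⟩
  exact D.θ_mul a t ⟨x, hxb⟩

/-- **The counting inequality**: lower bound for the total order of vanishing (sum of the
refining weights) on `V m ⧸ (V m ∩ b t)`. -/
theorem count_ring (hd : 0 < d) (t : ℝ) (r0 r1 : ℕ)
    (hcube : ∀ ε : Fin d → ℕ, (∀ j, ε j ≤ 1) → ∃ g ∈ D.G r1, IsLead1 g ε)
    (hG : D.G r0 ≠ ⊥) (k m : ℕ) (hk : k * (r0 + r1) ≤ m) {α : ℝ}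
    (hα : LexStrict (D.F m) (D.gr m).h α) :
    (d : ℝ) * ((d.factorial : ℝ) ^ ((1 : ℝ) / d)) *
        ((finrank K (D.G r0) : ℝ) ^ ((1 : ℝ) / d)) *
        ∑ j ∈ range k, ((finrank K (D.V (m - (j + 1) * (r0 + r1))) : ℝ) -
          finrank K ((D.F (m - (j + 1) * (r0 + r1))).sub t))
      - (d + 1) * ((finrank K (D.V m) : ℝ) - finrank K ((D.F m).sub t)) ≤
    ((D.gr m).lexW hα).TQ ((D.F m).sub t) - α * (D.F m).TQ ((D.F m).sub t) := by
  classical
  -- the finite set of all jumps below `t` of all levels up to `m`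
  set s : Finset ℝ := (range (m + 1)).biUnion
    (fun M => (D.F M).finite_values.toFinset.filter (fun a => a < t)) with hs
  have hs1 : ∀ a ∈ s, a < t := by
    intro a ha
    obtain ⟨M, _, h⟩ := Finset.mem_biUnion.1 ha
    exact (Finset.mem_filter.1 h).2
  have hs2 : ∀ M ≤ m, ∀ x : D.V M, x ≠ 0 → (D.F M).w x < t → (D.F M).w x ∈ s := by
    intro M hM x hx hlt
    refine Finset.mem_biUnion.2 ⟨M, Finset.mem_range.2 (by omega), ?_⟩
    rw [Finset.mem_filter, Set.Finite.mem_toFinset]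
    exact ⟨⟨x, hx, rfl⟩, hlt⟩
  have hdim : ∀ M ≤ m, ∑ a ∈ s, (finrank K (D.UU M a) : ℝ) =
      (finrank K (D.V M) : ℝ) - finrank K ((D.F M).sub t) := by
    intro M hM
    have h := (D.gr M).sum_finrank_U s t hs1 (hs2 M hM)
    have h' : ((∑ a ∈ s, finrank K (D.UU M a) + finrank K ((D.F M).sub t) : ℕ) : ℝ) =
        (finrank K (D.V M) : ℕ) := congrArg _ h
    push_cast at h'
    linarith
  have key := count_leads hd s D.r D.UU D.G
    (fun M M' a _ g hg f hf => D.mul_mem_U M M' a g hg f hf) r0 r1 hcube hG k m hk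
  have hTQ : ((D.gr m).lexW hα).TQ ((D.F m).sub t) = α * (D.F m).TQ ((D.F m).sub t) +
      ∑ a ∈ s, (ordSum (D.UU m a) : ℝ) := (D.gr m).TQ_lexW hα s t hs1 (hs2 m le_rfl)
  rw [hTQ, add_sub_cancel_left]
  refine le_trans (le_of_eq ?_) key
  rw [hdim m le_rfl]
  congr 2
  refine Finset.sum_congr rfl fun j _ => ?_
  rw [hdim _ (Nat.sub_le _ _)]

end GrRing

end Vale.Agent.P271.H207
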