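import Vale.Agent.P271.H207.GrSys
import Vale.Agent.P271.H207.GrRing
import Vale.Agent.P271.H207.CountTrunc

/-!
# P271 / COUNT: truncated lexicographic refinement (weights `α * F.w x + min (h x) E`)
-/

set_option linter.all false

open Finset Module

namespace Vale.Agent.P271.H207

open Vale.Agent.P271.F507 Vale.Agent.P271.Filt Vale.Agent.P271.Filt.Wt

variable {K : Type*} [Field K] {V : Type*} [AddCommGroup V] [Module K V] {d : ℕ}

namespace GrData

variable {F : Wt K V} (D : GrData F d)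

/-- the truncated order of vanishing of the leading part -/
noncomputable def hT (E : ℕ) (x : V) : ℝ := min (D.h x) E

theorem h_nonneg (x : V) : 0 ≤ D.h x := by
  rw [GrData.h]; positivity

theorem hT_nonneg (E : ℕ) (x : V) : 0 ≤ D.hT E x := le_min (D.h_nonneg x) (Nat.cast_nonneg _)

theorem hT_le (E : ℕ) (x : V) : D.hT E x ≤ E := min_le_right _ _

theorem IsLd.hT_eq {D : GrData F d} {x : V} {a : ℝ} {γ} (h : D.IsLd x a γ) (E : ℕ) :
    D.hT E x = ((min (deg γ.2) E : ℕ) : ℝ) := by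
  rw [hT, h.h_eq, Nat.cast_min]

/-- the truncated refinement is strict as soon as `α * gap > E` (independently of `D`) -/
theorem strict_of_gap {E : ℕ} {α : ℝ}
    (hgap : ∀ x y : V, x ≠ 0 → y ≠ 0 → F.w x < F.w y → (E : ℝ) < α * (F.w y - F.w x)) :
    LexStrict F (D.hT E) α := by
  intro x y hx hy hlt
  have h1 := hgap x y hx hy hlt
  have h2 := D.hT_le E x
  have h3 := D.hT_nonneg E y
  nlinarith

section FD

variable [FiniteDimensional K V]

theorem lexDataT {E : ℕ} {α : ℝ} (hs : LexStrict F (D.hT E) α) : LexData F (D.hT E) α := by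
  obtain ⟨α0, h0⟩ := D.exists_alpha'
  have H := D.lexData (h0 α0 le_rfl)
  refine ⟨?_, ?_, ?_, ?_⟩
  · intro c x hc hx
    exact min_le_min (H.smul c x hc hx) le_rfl
  · intro x y hx hy hxy hw hw2
    have h1 := H.add x y hx hy hxy hw hw2
    refine le_min ?_ ?_
    · refine le_trans ?_ h1
      exact min_le_min (min_le_left _ _) (min_le_left _ _)
    · exact (min_le_left _ _).trans (min_le_right _ _)
  · intro x y hx hy hlt
    exact min_le_min (H.add_lt x y hx hy hlt) le_rfl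
  · exact fun x y hx hy hlt => (hs x y hx hy hlt).le

/-- the truncated lexicographic refinement of `F` by the orders of the graded pieces -/
noncomputable def lexT {E : ℕ} {α : ℝ} (hs : LexStrict F (D.hT E) α) : Wt K V :=
  F.lex (D.hT E) α (D.lexDataT hs)

theorem lexT_w {E : ℕ} {α : ℝ} (hs : LexStrict F (D.hT E) α) (x : V) :
    (D.lexT hs).w x = α * F.w x + D.hT E x := rfl

theorem adapted_basisT {E : ℕ} {α : ℝ} (hs : LexStrict F (D.hT E) α) :
    (D.lexT hs).Adapted D.leaf.basis := by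
  refine D.leaf.adapted
    (g := fun γ => α * (ofLex γ).1 + ((min (ofLex (ofLex γ).2).1 E : ℕ) : ℝ)) ?_ ?_
  · intro γ hγ γ' hγ' h
    obtain ⟨x, hx, rfl⟩ := D.leaf.mem_img.1 hγ
    obtain ⟨y, hy, rfl⟩ := D.leaf.mem_img.1 hγ'
    obtain ⟨δ, hδ⟩ := D.exists_isLd hx
    obtain ⟨δ', hδ'⟩ := D.exists_isLd hy
    rcases Prod.Lex.le_iff.1 h with h | h
    · have h1 := hs x y hx hy (by rw [hδ.ld_eq, hδ'.ld_eq] at h; exact h)
      rw [hδ.hT_eq, hδ'.hT_eq] at h1
      rw [hδ.ld_eq, hδ'.ld_eq]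
      exact h1.le
    · obtain ⟨h1, h2⟩ := h
      rw [hδ.ld_eq, hδ'.ld_eq] at h1 h2 ⊢
      have h1' : F.w x = F.w y := h1
      have h4 : ((min (deg δ.2) E : ℕ) : ℝ) ≤ ((min (deg δ'.2) E : ℕ) : ℝ) := by
        exact_mod_cast min_le_min (key2_deg_le h2) le_rfl
      show α * F.w x + ((min (deg δ.2) E : ℕ) : ℝ) ≤ α * F.w y + ((min (deg δ'.2) E : ℕ) : ℝ)
      have h5 : α * F.w x = α * F.w y := by rw [h1']
      linarith
  · intro x hx
    obtain ⟨δ, hδ⟩ := D.exists_isLd hx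
    rw [lexT_w, hδ.ld_eq, hδ.hT_eq]
    rfl

/-- **Total weight of the quotient filtration of the truncated refinement on `V ⧸ F.sub τ`.** -/
theorem TQ_lexT {E : ℕ} {α : ℝ} (hs' : LexStrict F (D.hT E) α) (s : Finset ℝ) (τ : ℝ)
    (hs : ∀ a ∈ s, a < τ) (hs2 : ∀ x : V, x ≠ 0 → F.w x < τ → F.w x ∈ s) :
    (D.lexT hs').TQ (F.sub τ) = α * F.TQ (F.sub τ) + ∑ a ∈ s, (ordSumE (D.U a) E : ℝ) := by
  classical
  have hb := D.adapted_basisT hs'
  have hbF : F.Adapted D.leaf.basis := hb.of_lex hs'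
  have hcomp := (F.step_sub τ).compat hbF
  rw [TQ_eq_sum hb hcomp, TQ_eq_sum hbF hcomp, Finset.mul_sum]
  simp_rw [lexT_w]
  rw [Finset.sum_add_distrib]
  congr 1
  have h1 := D.sum_img s τ hs hs2 (fun _ e => ((min e E : ℕ) : ℝ))
  have h2 : ∑ a ∈ s, (ordSumE (D.U a) E : ℝ) =
      ∑ a ∈ s, ∑ δ ∈ (leads_finite (D.U a)).toFinset, ((min (deg δ.2) E : ℕ) : ℝ) :=
    Finset.sum_congr rfl fun a _ => by rw [ordSumE, Nat.cast_sum]
  rw [h2, ← h1]
  refine Finset.sum_bij (fun i _ => (i : ℝ ×ₗ (ℕ ×ₗ (ℕ ×ₗ Lex (Fin d → ℕ))))) ?_ ?_ ?_ ?_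
  · intro i hi
    rw [Finset.mem_filter] at hi ⊢
    refine ⟨i.2, ?_⟩
    have hne := D.leaf.basis.ne_zero i
    obtain ⟨δ, hδ⟩ := D.exists_isLd hne
    have e := hδ.ld_eq
    rw [D.leaf.lead_basis] at e
    rw [e]
    have := hi.2
    rw [F.mem_sub_of_ne hne, not_le] at this
    exact this
  · intro a _ b _ hab
    exact Subtype.ext hab
  · intro γ hγ
    rw [Finset.mem_filter] at hγ
    refine ⟨⟨γ, hγ.1⟩, ?_, rfl⟩
    rw [Finset.mem_filter]
    refine ⟨Finset.mem_univ _, ?_⟩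
    have hne := D.leaf.basis.ne_zero ⟨γ, hγ.1⟩
    obtain ⟨δ, hδ⟩ := D.exists_isLd hne
    have e := hδ.ld_eq
    rw [D.leaf.lead_basis] at e
    simp only at e
    rw [F.mem_sub_of_ne hne, not_le]
    have := hγ.2
    rw [e] at this
    exact this
  · intro i hi
    have hne := D.leaf.basis.ne_zero i
    obtain ⟨δ, hδ⟩ := D.exists_isLd hne
    have e := hδ.ld_eq
    rw [hδ.hT_eq]
    rw [D.leaf.lead_basis] at e
    rw [e]
    rfl

end FD

end GrData

namespace GrSys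

variable {K A : Type*} [Field K] [CommRing A] [Algebra K A] {d : ℕ} {S : Set ℝ}
  (D : GrSys K A d S)

theorem ordSumE_congr {k : Type*} [Field k] {d r : ℕ}
    {U U' : Submodule k (Fin r → MvPowerSeries (Fin d) k)} [FiniteDimensional k U]
    [FiniteDimensional k U'] (h : U = U') (E : ℕ) : ordSumE U E = ordSumE U' E := by
  subst h; rfl

/-- **The counting inequality** for a graded system, truncated at `E ≥ dim V m`. -/
theorem count_trunc (hd : 0 < d) (t : ℝ) (r0 r1 : ℕ)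
    (hcube : ∀ ε : Fin d → ℕ, (∀ j, ε j ≤ 1) → ∃ g ∈ D.G r1, IsLead1 g ε)
    (hG : D.G r0 ≠ ⊥) (k m : ℕ) (hk : k * (r0 + r1) ≤ m) {α : ℝ}
    (hm : ∀ x : D.V m, x ≠ 0 → (D.F m).w x ∈ S)
    (hS : ∀ j < k, ∀ x : D.V (m - (j + 1) * (r0 + r1)), x ≠ 0 →
      (D.F (m - (j + 1) * (r0 + r1))).w x < t →
      (D.F (m - (j + 1) * (r0 + r1))).w x ∈ S)
    {E : ℕ} (hE : finrank K (D.V m) ≤ E) (hα : LexStrict (D.F m) ((D.gr m hm).hT E) α) :
    (d : ℝ) * ((d.factorial : ℝ) ^ ((1 : ℝ) / d)) *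
        ((finrank K (D.G r0) : ℝ) ^ ((1 : ℝ) / d)) *
        ∑ j ∈ range k, ((finrank K (D.V (m - (j + 1) * (r0 + r1))) : ℝ) -
          finrank K ((D.F (m - (j + 1) * (r0 + r1))).sub t))
      - (d + 1) * ((finrank K (D.V m) : ℝ) - finrank K ((D.F m).sub t)) ≤
    ((D.gr m hm).lexT hα).TQ ((D.F m).sub t) - α * (D.F m).TQ ((D.F m).sub t) := by
  classical
  -- the finite set of the jumps below `t` of the levels used
  set s : Finset ℝ := (D.F m).finite_values.toFinset.filter (fun a => a < t) ∪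
    (range k).biUnion (fun j => (D.F (m - (j + 1) * (r0 + r1))).finite_values.toFinset.filter
      (fun a => a < t)) with hs
  have hs1 : ∀ a ∈ s, a < t := by
    intro a ha
    rcases Finset.mem_union.1 ha with h | h
    · exact (Finset.mem_filter.1 h).2
    · obtain ⟨M, _, h⟩ := Finset.mem_biUnion.1 h
      exact (Finset.mem_filter.1 h).2
  have hsS : ∀ a ∈ s, a ∈ S := by
    intro a ha
    rcases Finset.mem_union.1 ha with h | h
    · obtain ⟨h1, h2⟩ := Finset.mem_filter.1 h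
      rw [Set.Finite.mem_toFinset] at h1
      obtain ⟨x, hx, rfl⟩ := h1
      exact hm x hx
    · obtain ⟨j, hj, h⟩ := Finset.mem_biUnion.1 h
      obtain ⟨h1, h2⟩ := Finset.mem_filter.1 h
      rw [Set.Finite.mem_toFinset] at h1
      obtain ⟨x, hx, rfl⟩ := h1
      exact hS j (Finset.mem_range.1 hj) x hx h2
  have hs2m : ∀ x : D.V m, x ≠ 0 → (D.F m).w x < t → (D.F m).w x ∈ s := by
    intro x hx hlt
    refine Finset.mem_union_left _ (Finset.mem_filter.2 ⟨?_, hlt⟩)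
    rw [Set.Finite.mem_toFinset]
    exact ⟨x, hx, rfl⟩
  have hs2 : ∀ j < k, ∀ x : D.V (m - (j + 1) * (r0 + r1)), x ≠ 0 →
      (D.F (m - (j + 1) * (r0 + r1))).w x < t →
      (D.F (m - (j + 1) * (r0 + r1))).w x ∈ s := by
    intro j hj x hx hlt
    refine Finset.mem_union_right _ (Finset.mem_biUnion.2 ⟨j, Finset.mem_range.2 hj,
      Finset.mem_filter.2 ⟨?_, hlt⟩⟩)
    rw [Set.Finite.mem_toFinset]
    exact ⟨x, hx, rfl⟩
  have hdim : ∀ M, (∀ x : D.V M, x ≠ 0 → (D.F M).w x < t → (D.F M).w x ∈ s) →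
      ∑ a ∈ s, (finrank K (D.UU M a) : ℝ) =
      (finrank K (D.V M) : ℝ) - finrank K ((D.F M).sub t) := by
    intro M hM
    rw [← sum_finrank_gr s t hs1 hM]
    exact Finset.sum_congr rfl fun a ha => D.finrank_UU M (hsS a ha)
  have hEU : ∀ a ∈ s, finrank K (D.UU m a) ≤ E := by
    intro a ha
    have h1 := D.finrank_UU m (hsS a ha)
    have h2 : (finrank K ((D.F m).sub a) : ℝ) ≤ finrank K (D.V m) := by
      exact_mod_cast Submodule.finrank_le _
    have h3 : (0 : ℝ) ≤ finrank K ((D.F m).subGt a) := Nat.cast_nonneg _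
    have h4 : (finrank K (D.V m) : ℝ) ≤ E := by exact_mod_cast hE
    have h5 : (finrank K (D.UU m a) : ℝ) ≤ E := by linarith
    exact_mod_cast h5
  have key := count_leads_trunc hd s D.r D.UU D.G
    (fun M M' a ha g hg f hf => D.mul_mem_U M M' (hsS a ha) g hg f hf) r0 r1 hcube hG k m hk E
    hEU
  have hTQ : ((D.gr m hm).lexT hα).TQ ((D.F m).sub t) = α * (D.F m).TQ ((D.F m).sub t) +
      ∑ a ∈ s, (ordSumE (D.UU m a) E : ℝ) := by
    rw [(D.gr m hm).TQ_lexT hα s t hs1 hs2m]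
    congr 1
    refine Finset.sum_congr rfl fun a ha => ?_
    congr 1
    exact @ordSumE_congr K _ d (D.r a) ((D.gr m hm).U a) (D.UU m a)
      ((D.gr m hm).finiteDimensional_U a) (D.finUU m a) (D.gr_U m hm (hsS a ha)) E
  rw [hTQ, add_sub_cancel_left]
  refine le_trans (le_of_eq ?_) key
  rw [hdim m hs2m]
  congr 2
  refine Finset.sum_congr rfl fun j hj => ?_
  rw [hdim _ (hs2 j (Finset.mem_range.1 hj))]

end GrSys

namespace GrRing

variable {K A : Type*} [Field K] [CommRing A] [Algebra K A] {d : ℕ} (D : GrRing K A d)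

/-- **The counting inequality**, truncated at `E ≥ dim V m`. -/
theorem count_ring_trunc (hd : 0 < d) (t : ℝ) (r0 r1 : ℕ)
    (hcube : ∀ ε : Fin d → ℕ, (∀ j, ε j ≤ 1) → ∃ g ∈ D.G r1, IsLead1 g ε)
    (hG : D.G r0 ≠ ⊥) (k m : ℕ) (hk : k * (r0 + r1) ≤ m) {α : ℝ} {E : ℕ}
    (hE : finrank K (D.V m) ≤ E) (hα : LexStrict (D.F m) ((D.gr m).hT E) α) :
    (d : ℝ) * ((d.factorial : ℝ) ^ ((1 : ℝ) / d)) *
        ((finrank K (D.G r0) : ℝ) ^ ((1 : ℝ) / d)) *
        ∑ j ∈ range k, ((finrank K (D.V (m - (j + 1) * (r0 + r1))) : ℝ) -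
          finrank K ((D.F (m - (j + 1) * (r0 + r1))).sub t))
      - (d + 1) * ((finrank K (D.V m) : ℝ) - finrank K ((D.F m).sub t)) ≤
    ((D.gr m).lexT hα).TQ ((D.F m).sub t) - α * (D.F m).TQ ((D.F m).sub t) := by
  classical
  set s : Finset ℝ := (range (m + 1)).biUnion
    (fun M => (D.F M).finite_values.toFinset.filter (fun a => a < t)) with hs
  have hs1 : ∀ a ∈ s, a < t := by
    intro a ha
    obtain ⟨M, _, h⟩ := Finset.mem_biUnion.1 ha
    exact (Finset.mem_filter.1 h).2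
  have hs2 : ∀ M ≤ m, ∀ x : D.V M, x ≠ 0 → (D.F M).w x < t → (D.F M).w x ∈ s := by
    intro M hM x hx hlt
    refine Finset.mem_biUnion.2 ⟨M, Finset.mem_range.2 (by omega), ?_⟩
    rw [Finset.mem_filter, Set.Finite.mem_toFinset]
    exact ⟨⟨x, hx, rfl⟩, hlt⟩
  have hdim : ∀ M ≤ m, ∑ a ∈ s, (finrank K (D.UU M a) : ℝ) =
      (finrank K (D.V M) : ℝ) - finrank K ((D.F M).sub t) := by
    intro M hM
    have h := (D.gr M).sum_finrank_U s t hs1 (hs2 M hM)
    have h' : ((∑ a ∈ s, finrank K (D.UU M a) + finrank K ((D.F M).sub t) : ℕ) : ℝ) =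
        (finrank K (D.V M) : ℕ) := congrArg _ h
    push_cast at h'
    linarith
  have hEU : ∀ a ∈ s, finrank K (D.UU m a) ≤ E := by
    intro a _
    have h1 : finrank K (D.UU m a) + finrank K ((D.F m).subGt a) = finrank K ((D.F m).sub a) :=
      (D.gr m).finrank_U a
    have h2 : finrank K ((D.F m).sub a) ≤ finrank K (D.V m) := Submodule.finrank_le _
    omega
  have key := count_leads_trunc hd s D.r D.UU D.G
    (fun M M' a _ g hg f hf => D.mul_mem_U M M' a g hg f hf) r0 r1 hcube hG k m hk E hEU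
  have hTQ : ((D.gr m).lexT hα).TQ ((D.F m).sub t) = α * (D.F m).TQ ((D.F m).sub t) +
      ∑ a ∈ s, (ordSumE (D.UU m a) E : ℝ) := (D.gr m).TQ_lexT hα s t hs1 (hs2 m le_rfl)
  rw [hTQ, add_sub_cancel_left]
  refine le_trans (le_of_eq ?_) key
  rw [hdim m le_rfl]
  congr 2
  refine Finset.sum_congr rfl fun j _ => ?_
  rw [hdim _ (Nat.sub_le _ _)]

end GrRing

end Vale.Agent.P271.H207
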