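import Vale.Agent.P271.F507.Count

/-!
# P271 / COUNT-(a): leading exponents of vectors of formal power series

`f : Fin r → k[[x_1, …, x_d]]`.  The indices `(y, ξ)` (component, exponent) are ordered by
`(|ξ|, y, lex ξ)`.  Leading indices of a finite dimensional subspace: their number is the dimension;
the sum of their degrees is the sum of the orders of vanishing; multiplication by a power series `g`
adds the leading exponent of `g`.
-/

set_option linter.all false

open Finset

namespace Vale.Agent.P271.H207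

open Vale.Agent.P271.F507

variable {k : Type*} [Field k] {d r : ℕ}

/-- the monomial order on exponents: degree, then lexicographic -/
def key1 (ξ : Fin d → ℕ) : ℕ ×ₗ Lex (Fin d → ℕ) := toLex (deg ξ, toLex ξ)

/-- the order on exponents with a component -/
def key (γ : Fin r × (Fin d → ℕ)) : ℕ ×ₗ (Fin r ×ₗ Lex (Fin d → ℕ)) :=
  toLex (deg γ.2, toLex (γ.1, toLex γ.2))

theorem key1_injective : Function.Injective (key1 : (Fin d → ℕ) → _) := by
  intro a b h
  have := congrArg (fun x => (ofLex x).2) h
  simpa [key1] using this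

theorem key_injective : Function.Injective (key : Fin r × (Fin d → ℕ) → _) := by
  intro a b h
  have h1 := congrArg (fun x => (ofLex (ofLex x).2).1) h
  have h2 := congrArg (fun x => (ofLex (ofLex x).2).2) h
  simp only [key, ofLex_toLex] at h1 h2
  exact Prod.ext h1 (toLex.injective h2)

theorem deg_add (a b : Fin d → ℕ) : deg (a + b) = deg a + deg b := by
  simp [deg, Finset.sum_add_distrib]

theorem key1_le_iff {a b : Fin d → ℕ} :
    key1 a ≤ key1 b ↔ deg a < deg b ∨ deg a = deg b ∧ toLex a ≤ toLex b := by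
  rw [key1, key1, Prod.Lex.toLex_le_toLex]

theorem key_le_iff {a b : Fin r × (Fin d → ℕ)} :
    key a ≤ key b ↔ deg a.2 < deg b.2 ∨ deg a.2 = deg b.2 ∧ (a.1 < b.1 ∨ a.1 = b.1 ∧
      toLex a.2 ≤ toLex b.2) := by
  rw [key, key, Prod.Lex.toLex_le_toLex, Prod.Lex.toLex_le_toLex]

theorem toLex_add_le {a a' b b' : Fin d → ℕ} (h : toLex a ≤ toLex a') (h' : toLex b ≤ toLex b') :
    toLex (a + b) ≤ toLex (a' + b') := by
  have : toLex (a + b) = toLex a + toLex b := rfl
  rw [this, show toLex (a' + b') = toLex a' + toLex b' from rfl]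
  exact add_le_add h h'

/-- coefficient of a vector of power series -/
noncomputable def cf (f : Fin r → MvPowerSeries (Fin d) k) (γ : Fin r × (Fin d → ℕ)) : k :=
  MvPowerSeries.coeff (Finsupp.equivFunOnFinite.symm γ.2) (f γ.1)

theorem cf_add (f g : Fin r → MvPowerSeries (Fin d) k) (γ : Fin r × (Fin d → ℕ)) :
    cf (f + g) γ = cf f γ + cf g γ := by simp [cf]

theorem cf_smul (c : k) (f : Fin r → MvPowerSeries (Fin d) k) (γ : Fin r × (Fin d → ℕ)) :
    cf (c • f) γ = c * cf f γ := by simp [cf]

@[simp] theorem cf_zero (γ : Fin r × (Fin d → ℕ)) :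
    cf (0 : Fin r → MvPowerSeries (Fin d) k) γ = 0 := by simp [cf]

theorem ext_cf {f g : Fin r → MvPowerSeries (Fin d) k} (h : ∀ γ, cf f γ = cf g γ) : f = g := by
  funext y
  ext ξ
  have := h (y, Finsupp.equivFunOnFinite ξ)
  simpa [cf] using this

/-- `γ` is the leading index of `f` -/
def IsLead (f : Fin r → MvPowerSeries (Fin d) k) (γ : Fin r × (Fin d → ℕ)) : Prop :=
  cf f γ ≠ 0 ∧ ∀ γ', cf f γ' ≠ 0 → key γ ≤ key γ'

/-- `η` is the leading exponent of `g` -/
def IsLead1 (g : MvPowerSeries (Fin d) k) (η : Fin d → ℕ) : Prop :=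
  MvPowerSeries.coeff (Finsupp.equivFunOnFinite.symm η) g ≠ 0 ∧
    ∀ η', MvPowerSeries.coeff (Finsupp.equivFunOnFinite.symm η') g ≠ 0 → key1 η ≤ key1 η'

theorem IsLead.ne_zero {f : Fin r → MvPowerSeries (Fin d) k} {γ} (h : IsLead f γ) : f ≠ 0 := by
  rintro rfl
  exact h.1 (by simp)

theorem exists_least {α : Type*} [LinearOrder α] [WellFoundedLT α] {s : Set α} (hs : s.Nonempty) :
    ∃ a ∈ s, ∀ b ∈ s, a ≤ b :=
  ⟨WellFounded.min wellFounded_lt s hs, WellFounded.min_mem wellFounded_lt s hs, fun b hb =>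
    not_lt.1 (WellFounded.not_lt_min wellFounded_lt s hb)⟩

theorem IsLead.unique {f : Fin r → MvPowerSeries (Fin d) k} {γ γ'} (h : IsLead f γ)
    (h' : IsLead f γ') : γ = γ' :=
  key_injective (le_antisymm (h.2 _ h'.1) (h'.2 _ h.1))

theorem exists_isLead {f : Fin r → MvPowerSeries (Fin d) k} (hf : f ≠ 0) : ∃ γ, IsLead f γ := by
  have hne : {x | ∃ γ, cf f γ ≠ 0 ∧ key γ = x}.Nonempty := by
    by_contra h
    apply hf
    apply ext_cf
    intro γ
    by_contra h2
    exact h ⟨key γ, γ, by simpa using h2, rfl⟩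
  obtain ⟨x, ⟨γ, hγ, rfl⟩, hmin⟩ := exists_least hne
  exact ⟨γ, hγ, fun γ' hγ' => hmin _ ⟨γ', hγ', rfl⟩⟩

theorem exists_isLead1 {g : MvPowerSeries (Fin d) k} (hg : g ≠ 0) : ∃ η, IsLead1 g η := by
  have hne : {x | ∃ η, MvPowerSeries.coeff (Finsupp.equivFunOnFinite.symm η) g ≠ 0 ∧
      key1 η = x}.Nonempty := by
    by_contra h
    apply hg
    ext ξ
    by_contra h2
    exact h ⟨key1 (Finsupp.equivFunOnFinite ξ), _, by simpa using h2, rfl⟩
  obtain ⟨x, ⟨γ, hγ, rfl⟩, hmin⟩ := exists_least hne
  exact ⟨γ, hγ, fun γ' hγ' => hmin _ ⟨γ', hγ', rfl⟩⟩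

theorem equivSymm_add (a b : Fin d → ℕ) : (Finsupp.equivFunOnFinite.symm (a + b) : Fin d →₀ ℕ) =
    Finsupp.equivFunOnFinite.symm a + Finsupp.equivFunOnFinite.symm b := by
  ext i
  simp

/-- multiplication by `g` adds the leading exponents -/
theorem IsLead.mul {f : Fin r → MvPowerSeries (Fin d) k} {g : MvPowerSeries (Fin d) k}
    {y : Fin r} {ξ η : Fin d → ℕ} (hg : IsLead1 g η) (hf : IsLead f (y, ξ)) :
    IsLead (fun i => g * f i) (y, η + ξ) := by
  classical
  have key' : ∀ (y' : Fin r) (ζ : Fin d → ℕ), cf (fun i => g * f i) (y', ζ) ≠ 0 →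
      ∃ a b : Fin d → ℕ, a + b = ζ ∧
        MvPowerSeries.coeff (Finsupp.equivFunOnFinite.symm a) g ≠ 0 ∧ cf f (y', b) ≠ 0 := by
    intro y' ζ h
    rw [cf, MvPowerSeries.coeff_mul] at h
    obtain ⟨p, hp, hne⟩ := Finset.exists_ne_zero_of_sum_ne_zero h
    refine ⟨Finsupp.equivFunOnFinite p.1, Finsupp.equivFunOnFinite p.2, ?_, ?_, ?_⟩
    · have := Finset.HasAntidiagonal.mem_antidiagonal.1 hp
      funext i
      have h3 := congrArg (fun x : Fin d →₀ ℕ => x i) this
      simpa using h3
    · simpa using left_ne_zero_of_mul hne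
    · simpa [cf] using right_ne_zero_of_mul hne
  constructor
  · rw [cf, MvPowerSeries.coeff_mul, Finset.sum_eq_single
      (Finsupp.equivFunOnFinite.symm η, Finsupp.equivFunOnFinite.symm ξ)]
    · exact mul_ne_zero hg.1 hf.1
    · rintro ⟨a, b⟩ hab hne
      by_contra h
      apply hne
      have hab' := Finset.HasAntidiagonal.mem_antidiagonal.1 hab
      simp only at hab'
      set a' : Fin d → ℕ := Finsupp.equivFunOnFinite a with ha'
      set b' : Fin d → ℕ := Finsupp.equivFunOnFinite b with hb'
      have hsum : a' + b' = η + ξ := by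
        funext i
        have h3 := congrArg (fun x : Fin d →₀ ℕ => x i) hab'
        simpa [ha', hb'] using h3
      have h1 := hg.2 a' (by simpa [ha'] using left_ne_zero_of_mul h)
      have h2 := hf.2 (y, b') (by simpa [cf, hb'] using right_ne_zero_of_mul h)
      rw [key1_le_iff] at h1
      rw [key_le_iff] at h2
      simp only [lt_self_iff_false, false_or, true_and] at h2
      have hd : deg a' + deg b' = deg η + deg ξ := by rw [← deg_add, ← deg_add, hsum]
      have hda : deg η = deg a' := by
        rcases h1 with h1 | h1 <;> rcases h2 with h2 | h2 <;> omega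
      have hdb : deg ξ = deg b' := by omega
      have h1' : toLex η ≤ toLex a' := by
        rcases h1 with h1 | h1
        · omega
        · exact h1.2
      have h2' : toLex ξ ≤ toLex b' := by
        rcases h2 with h2 | h2
        · omega
        · exact h2.2
      have e1 : toLex η + toLex ξ = toLex a' + toLex b' := by
        have := congrArg toLex hsum
        exact this.symm
      have e2 : toLex a' = toLex η := by
        by_contra hne
        have hlt : toLex η < toLex a' := lt_of_le_of_ne h1' (Ne.symm hne)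
        have := add_lt_add_of_lt_of_le hlt h2'
        rw [e1] at this
        exact lt_irrefl _ this
      have e3 : a' = η := toLex.injective e2
      have e4 : b' = ξ := by
        rw [e3] at hsum
        exact add_left_cancel hsum
      rw [Prod.mk.injEq]
      constructor
      · rw [← e3, ha']; simp
      · rw [← e4, hb']; simp
    · intro h
      exfalso
      apply h
      rw [Finset.HasAntidiagonal.mem_antidiagonal, equivSymm_add]
  · rintro ⟨y', ζ⟩ hζ
    obtain ⟨a, b, hab, ha, hb⟩ := key' y' ζ hζ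
    have h1 := hg.2 a ha
    have h2 := hf.2 (y', b) hb
    rw [key1_le_iff] at h1
    rw [key_le_iff] at h2 ⊢
    simp only at h2 ⊢
    rw [← hab, deg_add, deg_add]
    rcases h1 with h1 | ⟨h1, h1'⟩
    · left
      rcases h2 with h2 | h2 <;> omega
    · rcases h2 with h2 | ⟨h2, h2'⟩
      · left; omega
      · right
        refine ⟨by omega, ?_⟩
        rcases h2' with h2' | ⟨h2', h2''⟩
        · left; exact h2'
        · right
          exact ⟨h2', toLex_add_le h1' h2''⟩

/-- the leading indices of the elements of a subspace -/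
def leads (U : Submodule k (Fin r → MvPowerSeries (Fin d) k)) : Set (Fin r × (Fin d → ℕ)) :=
  {γ | ∃ f ∈ U, IsLead f γ}

/-- coefficient functional -/
noncomputable def cfL (γ : Fin r × (Fin d → ℕ)) : (Fin r → MvPowerSeries (Fin d) k) →ₗ[k] k where
  toFun f := cf f γ
  map_add' f g := cf_add f g γ
  map_smul' c f := by simpa using cf_smul c f γ

/-- leaves are one dimensional -/
theorem leads_aux (n : ℕ) : ∀ (U : Submodule k (Fin r → MvPowerSeries (Fin d) k))
    [FiniteDimensional k U], Module.finrank k U = n → (leads U).Finite ∧ (leads U).ncard = n := by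
  induction n with
  | zero =>
    intro U _ h
    have hU : U = ⊥ := Submodule.finrank_eq_zero.1 h
    have : leads U = ∅ := by
      ext γ
      simp only [leads, Set.mem_setOf_eq, Set.mem_empty_iff_false, iff_false]
      rintro ⟨f, hf, hl⟩
      rw [hU] at hf
      exact hl.ne_zero ((Submodule.mem_bot k).1 hf)
    rw [this]
    simp
  | succ n ih =>
    intro U _ h
    -- the smallest leading index
    have hUne : ∃ f ∈ U, f ≠ 0 := by
      by_contra hcon
      push Not at hcon
      have : U = ⊥ := (Submodule.eq_bot_iff U).2 hcon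
      rw [this] at h
      simp at h
    obtain ⟨f, hf, hf0⟩ := hUne
    obtain ⟨γ1, hγ1⟩ := exists_isLead hf0
    have hne : {x | ∃ γ ∈ leads U, key γ = x}.Nonempty := ⟨key γ1, γ1, ⟨f, hf, hγ1⟩, rfl⟩
    obtain ⟨x, ⟨γ, ⟨f0, hf0U, hlead⟩, rfl⟩, hmin'⟩ := exists_least hne
    have hmin : ∀ γ' ∈ leads U, key γ ≤ key γ' := fun γ' hγ' => hmin' _ ⟨γ', hγ', rfl⟩
    -- the kernel of the coefficient functional
    set φ : U →ₗ[k] k := (cfL γ).comp U.subtype with hφ
    set U' : Submodule k (Fin r → MvPowerSeries (Fin d) k) := U ⊓ LinearMap.ker (cfL γ) with hU'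
    have hrange : LinearMap.range φ = ⊤ := by
      rw [LinearMap.range_eq_top]
      intro c
      refine ⟨⟨(c * (cf f0 γ)⁻¹) • f0, U.smul_mem _ hf0U⟩, ?_⟩
      simp only [hφ, LinearMap.comp_apply, Submodule.subtype_apply, cfL, LinearMap.coe_mk,
        AddHom.coe_mk, cf_smul]
      rw [mul_assoc, inv_mul_cancel₀ hlead.1, mul_one]
    have hker : Module.finrank k (LinearMap.ker φ) = Module.finrank k U' := by
      have e : LinearMap.ker φ = U'.comap U.subtype := by
        ext x
        simp [hφ, hU']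
      rw [e]
      exact (Submodule.comapSubtypeEquivOfLe (inf_le_left : U' ≤ U)).finrank_eq
    have hfr := LinearMap.finrank_range_add_finrank_ker φ
    rw [hrange, hker, h, finrank_top, Module.finrank_self] at hfr
    haveI : FiniteDimensional k U' := Submodule.finiteDimensional_of_le inf_le_left
    obtain ⟨ih1, ih2⟩ := ih U' (by omega)
    have hset : leads U = insert γ (leads U') := by
      ext γ'
      constructor
      · rintro ⟨g, hg, hgl⟩
        by_cases hc : cf g γ = 0
        · right
          exact ⟨g, ⟨hg, hc⟩, hgl⟩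
        · left
          have h1 := hmin γ' ⟨g, hg, hgl⟩
          have h2 := hgl.2 γ hc
          exact key_injective (le_antisymm h2 h1)
      · intro hγ'
        rcases hγ' with hγ' | ⟨g, hg, hgl⟩
        · rw [hγ']
          exact ⟨f0, hf0U, hlead⟩
        · exact ⟨g, hg.1, hgl⟩
    have hnot : γ ∉ leads U' := by
      rintro ⟨g, hg, hgl⟩
      exact hgl.1 hg.2
    rw [hset]
    refine ⟨ih1.insert γ, ?_⟩
    rw [Set.ncard_insert_of_notMem hnot ih1, ih2]

theorem leads_finite (U : Submodule k (Fin r → MvPowerSeries (Fin d) k)) [FiniteDimensional k U] :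
    (leads U).Finite := (leads_aux _ U rfl).1

theorem ncard_leads (U : Submodule k (Fin r → MvPowerSeries (Fin d) k)) [FiniteDimensional k U] :
    (leads U).ncard = Module.finrank k U := (leads_aux _ U rfl).2

/-- vectors of power series all of whose components vanish to order at least `e` -/
def ordGe (k : Type*) [Field k] (d r e : ℕ) : Submodule k (Fin r → MvPowerSeries (Fin d) k) where
  carrier := {f | ∀ γ, deg γ.2 < e → cf f γ = 0}
  zero_mem' := fun γ _ => cf_zero γ
  add_mem' := fun {f g} hf hg γ h => by rw [cf_add, hf γ h, hg γ h, add_zero]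
  smul_mem' := fun c f hf γ h => by rw [cf_smul, hf γ h, mul_zero]

theorem mem_ordGe {f : Fin r → MvPowerSeries (Fin d) k} {e : ℕ} :
    f ∈ ordGe k d r e ↔ ∀ γ, deg γ.2 < e → cf f γ = 0 := Iff.rfl

theorem leads_inf_ordGe (U : Submodule k (Fin r → MvPowerSeries (Fin d) k)) (e : ℕ) :
    leads (U ⊓ ordGe k d r e) = {γ ∈ leads U | e ≤ deg γ.2} := by
  ext γ
  constructor
  · rintro ⟨f, ⟨hfU, hfe⟩, hl⟩
    refine ⟨⟨f, hfU, hl⟩, ?_⟩
    by_contra h
    exact hl.1 (hfe γ (not_le.1 h))
  · rintro ⟨⟨f, hfU, hl⟩, he⟩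
    refine ⟨f, ⟨hfU, fun γ' h => ?_⟩, hl⟩
    by_contra hne
    have := hl.2 γ' hne
    rw [key_le_iff] at this
    omega

end Vale.Agent.P271.H207
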