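import Vale.Agent.P271.H207.GrTrunc
import Vale.Agent.P271.H84.HVal

/-!
# P271 / K3OUT : the data at one (general) point `χ` of the centre of a valuation

`𝒜` a graded ring, `h : RVal v` a valuation of the ring, `P = h.P` its centre, `S` a set of values.
`PtData 𝒜 h χ S d` : Taylor expansion `τ M` of the graded pieces modulo `P` in `d` coordinates,
coordinates `θ M a` of the pieces `(h.b a) / (h.bgt a)` for `a ∈ S`, and the comparison of the orders
with the ideal generated by the (homogeneous) functions `X j`, which vanish at `χ`.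

`PtData.exists_basis` : for every `E ≥ dim 𝒜 m` there are an adapted basis `b` of `𝒜 m` and
`e i ≤ E` with the decomposition needed for the upper bound of the exponent and with the counting
inequalities.
-/

set_option linter.all false

open Finset Module

namespace Vale.Agent.P271.H207

open Vale.Agent.P271.F507 Vale.Agent.P271.Filt Vale.Agent.P271.Filt.Wt Vale.Agent.P271.H84

/-- The data at a general point `χ` of the centre of the valuation. -/
structure PtData {k R : Type*} [Field k] [CommRing R] [IsDomain R] [Algebra k R] (𝒜 : ℕ → Submodule k R)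
    {v : R → ℝ} (h : RVal v) (χ : R →ₐ[k] k) (S : Set ℝ) (d : ℕ) where
  τ : ∀ M, 𝒜 M →ₗ[k] MvPowerSeries (Fin d) k
  r : ℝ → ℕ
  θ : ∀ (M : ℕ) (a : ℝ), (h.wt (𝒜 M)).sub a →ₗ[k] (Fin (r a) → MvPowerSeries (Fin d) k)
  τ_ker : ∀ (M : ℕ) (f : 𝒜 M), τ M f = 0 ↔ (f : R) ∈ h.P
  θ_ker : ∀ (M : ℕ), ∀ a ∈ S, ∀ x : (h.wt (𝒜 M)).sub a,
    θ M a x = 0 ↔ (x : 𝒜 M) ∈ (h.wt (𝒜 M)).subGt a
  θ_mul : ∀ (M M' : ℕ), ∀ a ∈ S, ∀ (g : 𝒜 M') (s : (h.wt (𝒜 M)).sub a)
    (t : (h.wt (𝒜 (M + M'))).sub a), ((t : 𝒜 (M + M')) : R) = (g : R) * ((s : 𝒜 M) : R) →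
    θ (M + M') a t = fun y => τ M' g * θ M a s y
  X : Fin d → R
  X_zero : ∀ j, χ (X j) = 0
  decomp : ∀ (M : ℕ), ∀ a ∈ S, ∀ (x : (h.wt (𝒜 M)).sub a) (e : ℕ),
    (∀ j, (e : ℕ∞) ≤ (θ M a x j).order) →
    ∃ u : R, χ u ≠ 0 ∧
      u * ((x : 𝒜 M) : R) ∈ Ideal.span (Set.range X) ^ e * h.b a ⊔ h.bgt a

end Vale.Agent.P271.H207
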