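import Vale.Agent.P271.H207.GrTrunc
import Vale.Agent.P271.Filt.Limit

/-!
# P271 / K3OUT : limits of the truncated lexicographic refinements

For a sequence of coordinates `D n` on the graded pieces of one filtration `F` of `V` there are a
subsequence, bases `b n` adapted to the truncated lexicographic refinements, with weights and
truncated orders independent of `n`, which converge to a basis `b'` adapted to `F`.
-/

set_option linter.all false

open Finset Module Filter Topology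

namespace Vale.Agent.P271.H207

open Vale.Agent.P271.F507 Vale.Agent.P271.Filt Vale.Agent.P271.Filt.Wt

section gap

variable {K : Type*} [Field K] {V : Type*} [AddCommGroup V] [Module K V] {d : ℕ}

theorem exists_gap_wt [FiniteDimensional K V] (F : Wt K V) : ∃ δ : ℝ, 0 < δ ∧
    ∀ x y : V, x ≠ 0 → y ≠ 0 → F.w x < F.w y → F.w x + δ ≤ F.w y := by
  classical
  set S : Finset ℝ := F.finite_values.toFinset with hS
  have hmemS : ∀ x, x ≠ 0 → F.w x ∈ S := fun x hx => by
    rw [hS, Set.Finite.mem_toFinset]; exact ⟨x, hx, rfl⟩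
  set P : Finset (ℝ × ℝ) := (S ×ˢ S).filter (fun p => p.1 < p.2) with hP
  by_cases hne : P.Nonempty
  · obtain ⟨p, hp, hmin⟩ := Finset.exists_min_image P (fun p => p.2 - p.1) hne
    refine ⟨p.2 - p.1, ?_, fun x y hx hy hab => ?_⟩
    · have := (Finset.mem_filter.1 hp).2; linarith
    · have := hmin (F.w x, F.w y)
        (Finset.mem_filter.2 ⟨Finset.mk_mem_product (hmemS x hx) (hmemS y hy), hab⟩)
      simp only at this
      linarith
  · refine ⟨1, one_pos, fun x y hx hy hab => ?_⟩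
    exact absurd ⟨(F.w x, F.w y), Finset.mem_filter.2
      ⟨Finset.mk_mem_product (hmemS x hx) (hmemS y hy), hab⟩⟩ hne

/-- one `α₁` for all coordinates -/
theorem exists_alpha_trunc [FiniteDimensional K V] (F : Wt K V) (E : ℕ) : ∃ α₁ : ℝ, 0 < α₁ ∧
    (∀ x y : V, x ≠ 0 → y ≠ 0 → F.w x < F.w y → ∀ α, α₁ ≤ α →
      (E : ℝ) < α * (F.w y - F.w x)) := by
  obtain ⟨δ, hδ, hgap⟩ := exists_gap_wt F
  refine ⟨(E + 1) / δ, by positivity, fun x y hx hy hlt α hα => ?_⟩
  have h1 := hgap x y hx hy hlt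
  have h2 : (E + 1 : ℝ) ≤ α * δ := by
    rw [div_le_iff₀ hδ] at hα
    exact hα
  have hα0 : 0 < α := lt_of_lt_of_le (by positivity) hα
  have h3 : α * δ ≤ α * (F.w y - F.w x) := mul_le_mul_of_nonneg_left (by linarith) hα0.le
  linarith

end gap

namespace GrData

variable {K : Type*} [Field K] {V : Type*} [AddCommGroup V] [Module K V] {d : ℕ}
  {F : Wt K V} (D : GrData F d)

/-- the truncated order as a natural number -/
noncomputable def hN (E : ℕ) (x : V) : ℕ := min ((ofLex (ofLex (D.ld x)).2).1) E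

theorem hT_eq (E : ℕ) (x : V) : D.hT E x = (D.hN E x : ℝ) := by
  rw [hT, hN, GrData.h, Nat.cast_min]

theorem hN_le (E : ℕ) (x : V) : D.hN E x ≤ E := min_le_right _ _

/-- the coordinates of the leading part vanish to order `hN` -/
theorem hN_le_order (E : ℕ) {x : V} {a : ℝ} (hx : x ≠ 0) (hxa : x ∈ F.sub a) (ha : F.w x = a)
    (j : Fin (D.r a)) : ((D.hN E x : ℕ) : ℕ∞) ≤ (D.θ a ⟨x, hxa⟩ j).order := by
  subst ha
  obtain ⟨γ, hγ⟩ := D.exists_isLd hx
  have h1 : D.hN E x ≤ deg γ.2 := by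
    have h2 := hγ.h_eq
    rw [GrData.h] at h2
    have h3 : (ofLex (ofLex (D.ld x)).2).1 = deg γ.2 := by exact_mod_cast h2
    rw [hN, h3]
    exact min_le_left _ _
  refine MvPowerSeries.nat_le_order fun δ hδ => ?_
  by_contra h0
  obtain ⟨_, hl⟩ := hγ
  have h4 : cf (D.θ (F.w x) ⟨x, hxa⟩) (j, Finsupp.equivFunOnFinite δ) ≠ 0 := by
    unfold cf
    simpa using h0
  have h5 := hl.2 _ h4
  rw [key_le_iff] at h5
  have h6 : deg γ.2 ≤ deg (Finsupp.equivFunOnFinite δ : Fin d → ℕ) := by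
    rcases h5 with h5 | h5
    · exact h5.le
    · exact h5.1.le
  have h7 : deg (Finsupp.equivFunOnFinite δ : Fin d → ℕ) = δ.degree := by
    rw [Finsupp.degree_eq_sum]
    rfl
  omega

section FD

variable [FiniteDimensional K V]

theorem adapted_lexT_of {E : ℕ} {α α' : ℝ} (hs : LexStrict F (D.hT E) α)
    (hs' : LexStrict F (D.hT E) α') {ι : Type*} {b : Basis ι K V}
    (hb : (D.lexT hs).Adapted b) : (D.lexT hs').Adapted b := by
  have hF : F.Adapted b := hb.of_lex hs
  intro x i hi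
  have hx : x ≠ 0 := by rintro rfl; simp at hi
  have h1 := hb x i hi
  rw [lexT_w, lexT_w] at h1 ⊢
  rcases (hF x i hi).lt_or_eq with hlt | heq
  · exact (hs' x (b i) hx (b.ne_zero i) hlt).le
  · rw [heq] at h1 ⊢
    linarith

open Classical in
theorem TQ_lexT_sub {E : ℕ} {α : ℝ} (hs : LexStrict F (D.hT E) α) {ι : Type*} [Fintype ι]
    {b : Basis ι K V} (hb : (D.lexT hs).Adapted b) (t : ℝ) :
    (D.lexT hs).TQ (F.sub t) - α * F.TQ (F.sub t) =
      ∑ i with F.w (b i) < t, (D.hN E (b i) : ℝ) := by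
  have hbF : F.Adapted b := hb.of_lex hs
  have hcomp := (F.step_sub t).compat hbF
  have hset : (Finset.univ.filter fun i => b i ∉ F.sub t)
      = Finset.univ.filter fun i => F.w (b i) < t := by
    ext i
    rw [Finset.mem_filter, Finset.mem_filter, F.mem_sub_of_ne (b.ne_zero i), not_le]
  rw [TQ_eq_sum hb hcomp, TQ_eq_sum hbF hcomp, Finset.mul_sum, ← Finset.sum_sub_distrib]
  refine Finset.sum_congr ?_ fun i _ => ?_
  · ext i
    simp only [Finset.mem_filter, Finset.mem_univ, true_and]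
    rw [F.mem_sub_of_ne (b.ne_zero i), not_le]
  · rw [lexT_w, D.hT_eq]
    ring

end FD

end GrData

section limit

variable {𝕜 : Type*} [RCLike 𝕜] {V : Type*} [AddCommGroup V] [Module 𝕜 V]
  [FiniteDimensional 𝕜 V] {d : ℕ}

/-- **Limit of the truncated lexicographic refinements.** -/
theorem exists_limit_lexT (F : Wt 𝕜 V) (E : ℕ) {α₁ : ℝ} (hα₁ : 0 < α₁)
    (hgap : ∀ x y : V, x ≠ 0 → y ≠ 0 → F.w x < F.w y → ∀ α, α₁ ≤ α →
      (E : ℝ) < α * (F.w y - F.w x)) (D : ℕ → GrData F d) :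
    ∃ (φ : ℕ → ℕ) (b : ℕ → Basis (Fin (finrank 𝕜 V)) 𝕜 V) (b' : Basis (Fin (finrank 𝕜 V)) 𝕜 V)
      (e : Fin (finrank 𝕜 V) → ℕ),
      StrictMono φ ∧ F.Adapted b' ∧ (∀ n, F.Adapted (b n)) ∧
      (∀ n i, F.w (b n i) = F.w (b' i)) ∧ (∀ n i, (D (φ n)).hN E (b n i) = e i) ∧
      (∀ i, e i ≤ E) ∧
      (∀ α, α₁ ≤ α → Antitone (fun i => α * F.w (b' i) + e i)) ∧
      (∀ n α (hs : LexStrict F ((D (φ n)).hT E) α), ((D (φ n)).lexT hs).Adapted (b n)) ∧
      (∀ (f : V →ₗ[𝕜] 𝕜) (i), Tendsto (fun n => f (b n i)) atTop (𝓝 (f (b' i)))) := by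
  classical
  have hs : ∀ n α, α₁ ≤ α → LexStrict F ((D n).hT E) α := fun n α hα =>
    (D n).strict_of_gap fun x y hx hy hlt => hgap x y hx hy hlt α hα
  set S : Finset ℝ := (F.finite_values.toFinset ×ˢ Finset.range (E + 1)).image
    (fun p => α₁ * p.1 + (p.2 : ℝ)) with hS
  have hmem : ∀ n x, x ≠ 0 → ((D n).lexT (hs n α₁ le_rfl)).w x ∈ S := by
    intro n x hx
    rw [hS, Finset.mem_image]
    refine ⟨(F.w x, (D n).hN E x), ?_, ?_⟩
    · rw [Finset.mem_product, Finset.mem_range, Set.Finite.mem_toFinset]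
      exact ⟨⟨x, hx, rfl⟩, Nat.lt_succ_of_le ((D n).hN_le E x)⟩
    · rw [GrData.lexT_w, GrData.hT_eq]
  obtain ⟨φ, b, b', lam, hφ, hanti, hadp, hw, hlim, -, -, -, -⟩ :=
    exists_limit_general (fun n => (D n).lexT (hs n α₁ le_rfl)) S hmem
  have hbF : ∀ n, F.Adapted (b n) := fun n => (hadp n).of_lex (hs (φ n) α₁ le_rfl)
  have hw' : ∀ n i, α₁ * F.w (b n i) + (((D (φ n)).hN E (b n i) : ℕ) : ℝ) = lam i := by
    intro n i
    have := hw n i
    rw [GrData.lexT_w, GrData.hT_eq] at this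
    exact this
  have hlt : ∀ n n' i, ¬ F.w (b n i) < F.w (b n' i) := by
    intro n n' i hlt
    have h1 := hgap _ _ ((b n).ne_zero i) ((b n').ne_zero i) hlt α₁ le_rfl
    have h2 := hw' n i
    have h3 := hw' n' i
    have h4 : (((D (φ n)).hN E (b n i) : ℕ) : ℝ) ≤ E := by
      exact_mod_cast (D (φ n)).hN_le E _
    have h5 : (0 : ℝ) ≤ (((D (φ n')).hN E (b n' i) : ℕ) : ℝ) := Nat.cast_nonneg _
    nlinarith
  have hwc : ∀ n i, F.w (b n i) = F.w (b 0 i) := fun n i =>
    le_antisymm (not_lt.1 (hlt 0 n i)) (not_lt.1 (hlt n 0 i))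
  have hec : ∀ n i, (D (φ n)).hN E (b n i) = (D (φ 0)).hN E (b 0 i) := by
    intro n i
    have h2 := hw' n i
    have h3 := hw' 0 i
    rw [hwc n i, ← h3] at h2
    have h4 : (((D (φ n)).hN E (b n i) : ℕ) : ℝ) = (((D (φ 0)).hN E (b 0 i) : ℕ) : ℝ) := by
      linarith
    exact_mod_cast h4
  -- the limit basis
  have hge : ∀ i, F.w (b 0 i) ≤ F.w (b' i) := by
    intro i
    have hmem : b' i ∈ F.sub (F.w (b 0 i)) := by
      by_contra hnot
      obtain ⟨f, hf1, hf2⟩ := Submodule.exists_le_ker_of_notMem hnot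
      have h1 := hlim f i
      have h2 : (fun n => f (b n i)) = fun _ => (0 : 𝕜) := by
        funext n
        have : b n i ∈ F.sub (F.w (b 0 i)) := fun _ => (hwc n i).ge
        exact LinearMap.mem_ker.1 (hf2 this)
      rw [h2] at h1
      exact hf1 (tendsto_nhds_unique h1 tendsto_const_nhds)
    exact hmem (b'.ne_zero i)
  have hT1 : ∑ i, F.w (b' i) ≤ F.T := sum_le_T (F := F) b'
  have hT2 : F.T = ∑ i, F.w (b 0 i) := ((hbF 0).sum_eq).symm
  have hadp' : F.Adapted b' := by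
    apply adapted_of_T_le
    rw [hT2]
    exact Finset.sum_le_sum fun i _ => hge i
  have heq : ∀ i, F.w (b 0 i) = F.w (b' i) := by
    intro i
    have h1 := (Finset.sum_eq_sum_iff_of_le (fun i _ => hge i)).1
      (le_antisymm (Finset.sum_le_sum fun i _ => hge i) (by rw [← hT2]; exact hT1))
    exact h1 i (Finset.mem_univ i)
  refine ⟨φ, b, b', fun i => (D (φ 0)).hN E (b 0 i), hφ, hadp', hbF,
    fun n i => (hwc n i).trans (heq i), hec, fun i => (D (φ 0)).hN_le E _, ?_, ?_, hlim⟩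
  · intro α hα i j hij
    have h1 := hanti hij
    have h2 := hw' 0 i
    have h3 := hw' 0 j
    show α * F.w (b' j) + _ ≤ α * F.w (b' i) + _
    rw [← heq i, ← heq j]
    have hle : F.w (b 0 j) ≤ F.w (b 0 i) := by
      by_contra hlt'
      push Not at hlt'
      have h4 := hs (φ 0) α₁ le_rfl _ _ ((b 0).ne_zero i) ((b 0).ne_zero j) hlt'
      rw [GrData.hT_eq, GrData.hT_eq] at h4
      linarith
    rcases hle.lt_or_eq with hlt' | heq'
    · have h4 := hs (φ 0) α hα _ _ ((b 0).ne_zero j) ((b 0).ne_zero i) hlt'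
      rw [GrData.hT_eq, GrData.hT_eq] at h4
      exact h4.le
    · rw [heq'] at h3 ⊢
      linarith
  · intro n α hsα
    exact (D (φ n)).adapted_lexT_of (hs (φ n) α₁ le_rfl) hsα (hadp n)

end limit

end Vale.Agent.P271.H207
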