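import Vale.Agent.P271.H207.PtData
import Vale.Agent.P271.H207.K3Seq
import Vale.Agent.P271.H58.DropGraded

/-!
# P271 / K3OUT : from the data at general points to bases with orders and counting inequalities
-/

set_option linter.all false

open Finset Module Filter Topology

namespace Vale.Agent.P271.H207

open Vale.Agent.P271.F507 Vale.Agent.P271.Filt Vale.Agent.P271.Filt.Wt Vale.Agent.P271.H84
open Vale.Agent.P271.Drop (hilb)

namespace PtData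

variable {k R : Type*} [Field k] [CommRing R] [IsDomain R] [Algebra k R] {𝒜 : ℕ → Submodule k R}
  [GradedAlgebra 𝒜] [∀ M, FiniteDimensional k (𝒜 M)]
  {v : R → ℝ} {h : RVal v} {χ : R →ₐ[k] k} {S : Set ℝ} {d : ℕ} (D : PtData 𝒜 h χ S d)

/-- the associated graded system -/
noncomputable def sys : GrSys k R d S where
  V := 𝒜
  fin M := inferInstance
  mul_mem M M' g hg s hs := by
    have := SetLike.GradedMul.mul_mem hg hs
    rwa [add_comm] at this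
  F M := h.wt (𝒜 M)
  τ := D.τ
  r := D.r
  θ := D.θ
  ker := D.θ_ker
  mul_sub M M' a g s := by
    intro h0
    have h1 : (g : R) * ((s : 𝒜 M) : R) ≠ 0 := fun h2 => h0 (Subtype.ext h2)
    have hg : (g : R) ≠ 0 := left_ne_zero_of_mul h1
    have hs : ((s : 𝒜 M) : R) ≠ 0 := right_ne_zero_of_mul h1
    show a ≤ v ((g : R) * ((s : 𝒜 M) : R))
    rw [h.mul _ _ hg hs]
    have h3 := h.nonneg _ hg
    have h4 : a ≤ v ((s : 𝒜 M) : R) := s.2 fun h5 => hs (by rw [h5]; rfl)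
    linarith
  θ_mul M M' a ha g s := D.θ_mul M M' a ha g s _ rfl

theorem sys_F (M : ℕ) : D.sys.F M = h.wt (𝒜 M) := rfl

theorem finrank_G (M : ℕ) : finrank k (D.sys.G M) = hilb 𝒜 h.P M := by
  have h1 := LinearMap.finrank_range_add_finrank_ker (D.τ M)
  set ψ : 𝒜 M →ₗ[k] R ⧸ h.P := (Ideal.Quotient.mkₐ k h.P).toLinearMap.comp (𝒜 M).subtype with hψ
  have h2 := LinearMap.finrank_range_add_finrank_ker ψ
  have hker : LinearMap.ker (D.τ M) = LinearMap.ker ψ := by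
    ext f
    rw [LinearMap.mem_ker, D.τ_ker, LinearMap.mem_ker]
    show _ ↔ Ideal.Quotient.mk h.P (f : R) = 0
    exact Ideal.Quotient.eq_zero_iff_mem.symm
  have hr : LinearMap.range ψ = (𝒜 M).map (Ideal.Quotient.mkₐ k h.P).toLinearMap := by
    rw [hψ, LinearMap.range_comp, Submodule.range_subtype]
  have h3 : finrank k (LinearMap.range (D.τ M)) = finrank k (LinearMap.range ψ) := by
    rw [hker] at h1
    omega
  rw [hr] at h3
  exact h3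

theorem hm {m : ℕ} (hS : ∀ M ≤ m, ∀ x ∈ 𝒜 M, x ≠ 0 → v x ∈ S) :
    ∀ x : D.sys.V m, x ≠ 0 → (D.sys.F m).w x ∈ S := fun x hx =>
  hS m le_rfl x x.2 fun h0 => hx (Subtype.ext h0)

/-- the coordinates of the graded pieces of `𝒜 m` -/
noncomputable def grd {m : ℕ} (hS : ∀ M ≤ m, ∀ x ∈ 𝒜 M, x ≠ 0 → v x ∈ S) :
    GrData (h.wt (𝒜 m)) d := D.sys.gr m (D.hm hS)

/-- the codimension of the elements of value at least `t` in degree `M` -/
noncomputable def _root_.Vale.Agent.P271.H207.codim {k R : Type*} [Field k] [CommRing R]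
    [IsDomain R] [Algebra k R] (𝒜 : ℕ → Submodule k R) {v : R → ℝ} (h : RVal v) (t : ℝ) (M : ℕ) :
    ℝ :=
  (finrank k (𝒜 M) : ℝ) - finrank k ((h.wt (𝒜 M)).sub t)

/-- **The counting inequalities** for a basis adapted to the truncated lexicographic refinement. -/
theorem count_basis (hd : 0 < d) {m E : ℕ} (hE : finrank k (𝒜 m) ≤ E)
    (hS : ∀ M ≤ m, ∀ x ∈ 𝒜 M, x ≠ 0 → v x ∈ S) {α : ℝ}
    (hs : LexStrict (h.wt (𝒜 m)) ((D.grd hS).hT E) α) {ι : Type*} [Fintype ι]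
    {b : Basis ι k (𝒜 m)} (hb : ((D.grd hS).lexT hs).Adapted b) {r1 : ℕ}
    (hcube : ∀ ε : Fin d → ℕ, (∀ j, ε j ≤ 1) → ∃ g : 𝒜 r1, IsLead1 (D.τ r1 g) ε)
    (t : ℝ) (r0 j : ℕ) (hk : j * (r0 + r1) ≤ m) :
    (d : ℝ) * ((d.factorial : ℝ) ^ ((1 : ℝ) / d)) * ((hilb 𝒜 h.P r0 : ℝ) ^ ((1 : ℝ) / d)) *
        ∑ i ∈ range j, codim 𝒜 h t (m - (i + 1) * (r0 + r1)) - (d + 1) * codim 𝒜 h t m ≤
      ∑ i, if v (b i) < t then ((D.grd hS).hN E (b i) : ℝ) else 0 := by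
  classical
  have hnn : ∀ M, 0 ≤ codim 𝒜 h t M := by
    intro M
    unfold codim
    have : finrank k ((h.wt (𝒜 M)).sub t) ≤ finrank k (𝒜 M) := Submodule.finrank_le _
    have h2 : (finrank k ((h.wt (𝒜 M)).sub t) : ℝ) ≤ finrank k (𝒜 M) := by exact_mod_cast this
    linarith
  by_cases hG : D.sys.G r0 = ⊥
  · have h0 : hilb 𝒜 h.P r0 = 0 := by
      rw [← D.finrank_G, hG]
      exact finrank_bot k _
    have hd' : (1 : ℝ) / d ≠ 0 := by positivity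
    rw [h0, Nat.cast_zero, Real.zero_rpow hd', mul_zero, zero_mul, zero_sub]
    have h1 : 0 ≤ ∑ i, if v (b i) < t then
        ((D.grd hS).hN E (b i) : ℝ) else 0 :=
      Finset.sum_nonneg fun i _ => by split_ifs <;> positivity
    have h2 : 0 ≤ ((d : ℝ) + 1) * codim 𝒜 h t m := mul_nonneg (by positivity) (hnn m)
    linarith
  · have key := D.sys.count_trunc hd t r0 r1
      (fun ε hε => by
        obtain ⟨g, hg⟩ := hcube ε hε
        exact ⟨D.τ r1 g, ⟨g, rfl⟩, hg⟩) hG j m hk (D.hm hS)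
      (fun i hi x hx _ => hS _ (Nat.sub_le _ _) x x.2 fun h0 => hx (Subtype.ext h0)) hE hs
    rw [D.finrank_G] at key
    have h3 := (D.grd hS).TQ_lexT_sub hs hb t
    refine le_trans (le_of_eq ?_) (key.trans (le_of_eq (h3.trans ?_)))
    · rfl
    · rw [Finset.sum_filter]
      rfl

end PtData

section limit

variable {𝕜 R : Type*} [RCLike 𝕜] [CommRing R] [IsDomain R] [Algebra 𝕜 R] {𝒜 : ℕ → Submodule 𝕜 R}
  [GradedAlgebra 𝒜] [∀ M, FiniteDimensional 𝕜 (𝒜 M)] {v : R → ℝ} {h : RVal v} {S : Set ℝ} {d : ℕ}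

/-- **K3OUT, algebraic half.** Points `χ n` with the data `D n`; then (on a subsequence `φ`) there
are bases `b n` of `𝒜 m` with the same weights `v (b' i)` and orders `≥ e i`, converging to `b'`,
with all counting inequalities for `e`. -/
theorem exists_K3 {χ : ℕ → (R →ₐ[𝕜] 𝕜)} (D : ∀ n, PtData 𝒜 h (χ n) S d) (hd : 0 < d) {m E : ℕ}
    (hE : finrank 𝕜 (𝒜 m) ≤ E) (hS : ∀ M ≤ m, ∀ x ∈ 𝒜 M, x ≠ 0 → v x ∈ S) {r1 : ℕ}
    (hcube : ∀ n, ∀ ε : Fin d → ℕ, (∀ j, ε j ≤ 1) → ∃ g : 𝒜 r1, IsLead1 ((D n).τ r1 g) ε)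
    {α₁ : ℝ} (hα₁ : 0 < α₁)
    (hgap : ∀ x ∈ 𝒜 m, ∀ y ∈ 𝒜 m, x ≠ 0 → y ≠ 0 → v x < v y → ∀ α, α₁ ≤ α →
      (E : ℝ) < α * (v y - v x)) :
    ∃ (φ : ℕ → ℕ) (b : ℕ → Basis (Fin (finrank 𝕜 (𝒜 m))) 𝕜 (𝒜 m))
      (b' : Basis (Fin (finrank 𝕜 (𝒜 m))) 𝕜 (𝒜 m)) (e : Fin (finrank 𝕜 (𝒜 m)) → ℕ),
      StrictMono φ ∧ (h.wt (𝒜 m)).Adapted b' ∧ (∀ n, (h.wt (𝒜 m)).Adapted (b n)) ∧
      (∀ n i, v (b n i) = v (b' i)) ∧ (∀ i, e i ≤ E) ∧
      (∀ α, α₁ ≤ α → Antitone (fun i => α * v (b' i) + e i)) ∧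
      (∀ n i, ∃ u : R, χ (φ n) u ≠ 0 ∧
        u * (b n i : R) ∈ Ideal.span (Set.range (D (φ n)).X) ^ e i * h.b (v (b' i)) ⊔
          h.bgt (v (b' i))) ∧
      (∀ (f : 𝒜 m →ₗ[𝕜] 𝕜) (i), Tendsto (fun n => f (b n i)) atTop (𝓝 (f (b' i)))) ∧
      (∀ (t : ℝ) (r0 j : ℕ), j * (r0 + r1) ≤ m →
        (d : ℝ) * ((d.factorial : ℝ) ^ ((1 : ℝ) / d)) * ((hilb 𝒜 h.P r0 : ℝ) ^ ((1 : ℝ) / d)) *
          ∑ i ∈ range j, codim 𝒜 h t (m - (i + 1) * (r0 + r1)) - (d + 1) * codim 𝒜 h t m ≤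
        ∑ i, if v (b' i) < t then (e i : ℝ) else 0) := by
  classical
  have hgap' : ∀ x y : 𝒜 m, x ≠ 0 → y ≠ 0 → (h.wt (𝒜 m)).w x < (h.wt (𝒜 m)).w y →
      ∀ α, α₁ ≤ α → (E : ℝ) < α * ((h.wt (𝒜 m)).w y - (h.wt (𝒜 m)).w x) :=
    fun x y hx hy hlt α hα => hgap x x.2 y y.2 (fun h0 => hx (Subtype.ext h0))
      (fun h0 => hy (Subtype.ext h0)) hlt α hα
  obtain ⟨φ, b, b', e, hφ, hb', hb, hw, he, heE, hanti, hadp, hlim⟩ :=
    exists_limit_lexT (h.wt (𝒜 m)) E hα₁ hgap' (fun n => (D n).grd hS)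
  refine ⟨φ, b, b', e, hφ, hb', hb, hw, heE, hanti, ?_, hlim, ?_⟩
  · intro n i
    have hG : ((D (φ n)).grd hS).θ (v (b' i)) = (D (φ n)).θ m (v (b' i)) := by
      have haS : v (b' i) ∈ S := hS m le_rfl _ (b' i).2 fun h0 => b'.ne_zero i (Subtype.ext h0)
      show (if v (b' i) ∈ S then (D (φ n)).sys.θ m (v (b' i)) else 0) = _
      rw [if_pos haS]
      rfl
    have hne := (b n).ne_zero i
    have haS : v (b' i) ∈ S := hS m le_rfl _ (b' i).2 fun h0 => b'.ne_zero i (Subtype.ext h0)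
    have hmem : b n i ∈ (h.wt (𝒜 m)).sub (v (b' i)) := fun _ => (hw n i).ge
    have hord := ((D (φ n)).grd hS).hN_le_order E hne hmem (hw n i)
    rw [he n i, hG] at hord
    exact (D (φ n)).decomp m _ haS ⟨b n i, hmem⟩ (e i) hord
  · intro t r0 j hj
    have hs := ((D (φ 0)).grd hS).strict_of_gap (E := E) (α := α₁)
      (fun x y hx hy hlt => hgap' x y hx hy hlt α₁ le_rfl)
    have key := (D (φ 0)).count_basis hd hE hS hs (hadp 0 α₁ hs) (hcube (φ 0)) t r0 j hj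
    refine key.trans (le_of_eq ?_)
    refine Finset.sum_congr rfl fun i _ => ?_
    have h1 := hw 0 i
    have h2 := he 0 i
    have h3 : v (b 0 i) = v (b' i) := h1
    rw [h3, h2]

/-- the constant `α₁` exists -/
theorem exists_alpha_val (𝒜 : ℕ → Submodule 𝕜 R) [∀ M, FiniteDimensional 𝕜 (𝒜 M)] (h : RVal v)
    (m E : ℕ) : ∃ α₁ : ℝ, 0 < α₁ ∧
      ∀ x ∈ 𝒜 m, ∀ y ∈ 𝒜 m, x ≠ 0 → y ≠ 0 → v x < v y → ∀ α, α₁ ≤ α →
      (E : ℝ) < α * (v y - v x) := by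
  obtain ⟨α₁, h1, h2⟩ := exists_alpha_trunc (h.wt (𝒜 m)) E
  refine ⟨α₁, h1, fun x hx y hy hx0 hy0 hlt α hα => ?_⟩
  exact h2 ⟨x, hx⟩ ⟨y, hy⟩ (fun h0 => hx0 (congrArg Subtype.val h0))
    (fun h0 => hy0 (congrArg Subtype.val h0)) hlt α hα

end limit

end Vale.Agent.P271.H207
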