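import Vale.Agent.P271.H207.Lead

/-!
# P271 / COUNT-(a): the counting inequality for graded pieces

`U M i` (`i` in a finite set of jumps) = the image of the `i`-th graded piece of level `M` in
`k[[x_1, …, x_d]] ^ (r i)`; `G M` = the image of level `M` in `k[[x_1, …, x_d]]`.
-/

set_option linter.all false

open Finset

namespace Vale.Agent.P271.H207

open Vale.Agent.P271.F507

variable {k : Type*} [Field k] {d r : ℕ}

/-- the sum of the orders of vanishing of a finite dimensional subspace -/
noncomputable def ordSum (U : Submodule k (Fin r → MvPowerSeries (Fin d) k))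
    [FiniteDimensional k U] : ℕ := ∑ γ ∈ (leads_finite U).toFinset, deg γ.2

theorem card_leads (U : Submodule k (Fin r → MvPowerSeries (Fin d) k)) [FiniteDimensional k U] :
    (leads_finite U).toFinset.card = Module.finrank k U := by
  rw [← ncard_leads U, Set.ncard_eq_toFinset_card _ (leads_finite U)]

instance (U : Submodule k (Fin r → MvPowerSeries (Fin d) k)) [FiniteDimensional k U] (e : ℕ) :
    FiniteDimensional k (U ⊓ ordGe k d r e : Submodule k (Fin r → MvPowerSeries (Fin d) k)) :=
  Submodule.finiteDimensional_of_le inf_le_left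

theorem card_filter_leads (U : Submodule k (Fin r → MvPowerSeries (Fin d) k))
    [FiniteDimensional k U] (e : ℕ) :
    ((leads_finite U).toFinset.filter (fun γ => e ≤ deg γ.2)).card =
      Module.finrank k (U ⊓ ordGe k d r e : Submodule k (Fin r → MvPowerSeries (Fin d) k)) := by
  rw [← card_leads]
  congr 1
  ext γ
  simp [leads_inf_ordGe]

/-- the sum of the orders is the sum over `e ≥ 1` of the dimensions of the subspaces of vectors
of order at least `e` -/
theorem ordSum_eq (U : Submodule k (Fin r → MvPowerSeries (Fin d) k)) [FiniteDimensional k U]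
    (N : ℕ) (hN : U ⊓ ordGe k d r (N + 1) = ⊥) :
    ordSum U = ∑ e ∈ range N,
      Module.finrank k (U ⊓ ordGe k d r (e + 1) :
        Submodule k (Fin r → MvPowerSeries (Fin d) k)) := by
  have hdeg : ∀ γ ∈ (leads_finite U).toFinset, deg γ.2 ≤ N := by
    intro γ hγ
    by_contra h
    have h1 : γ ∈ leads (U ⊓ ordGe k d r (N + 1)) := by
      rw [leads_inf_ordGe]
      exact ⟨by simpa using hγ, by omega⟩
    rw [hN] at h1
    obtain ⟨f, hf, hl⟩ := h1
    exact hl.ne_zero ((Submodule.mem_bot k).1 hf)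
  have h1 : ∀ γ ∈ (leads_finite U).toFinset,
      deg γ.2 = ∑ e ∈ range N, if e + 1 ≤ deg γ.2 then 1 else 0 := by
    intro γ hγ
    have h2 := hdeg γ hγ
    rw [← Finset.sum_filter, Finset.sum_const, smul_eq_mul, mul_one]
    have : (range N).filter (fun e => e + 1 ≤ deg γ.2) = range (deg γ.2) := by
      ext e
      simp only [mem_filter, mem_range]
      omega
    rw [this, card_range]
  rw [ordSum, Finset.sum_congr rfl h1, Finset.sum_comm]
  refine Finset.sum_congr rfl fun e _ => ?_
  rw [← card_filter_leads, ← Finset.sum_filter, Finset.sum_const, smul_eq_mul, mul_one]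

/-- vectors with pairwise different leading indices are linearly independent -/
theorem linearIndependent_of_isLead {ι : Type*} (f : ι → Fin r → MvPowerSeries (Fin d) k)
    (γ : ι → Fin r × (Fin d → ℕ)) (hγ : Function.Injective γ) (h : ∀ i, IsLead (f i) (γ i)) :
    LinearIndependent k f := by
  classical
  rw [linearIndependent_iff']
  intro s
  -- induct on the finset, removing the index with smallest key
  induction s using Finset.strongInduction with
  | _ s ih =>
    intro g hg i hi
    obtain ⟨j, hj, hmin⟩ := Finset.exists_min_image s (fun i => key (γ i)) ⟨i, hi⟩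
    have hj0 : g j = 0 := by
      have h1 : cf (∑ i ∈ s, g i • f i) (γ j) = 0 := by rw [hg]; simp
      have h2 : cf (∑ i ∈ s, g i • f i) (γ j) = ∑ i ∈ s, g i * cf (f i) (γ j) := by
        have := map_sum (cfL (k := k) (γ j)) (fun i => g i • f i) s
        simp only [cfL, LinearMap.coe_mk, AddHom.coe_mk, cf_smul] at this
        exact this
      rw [h2, Finset.sum_eq_single j] at h1
      · exact (mul_eq_zero.1 h1).resolve_right (h j).1
      · intro l hl hlj
        by_cases hc : cf (f l) (γ j) = 0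
        · rw [hc, mul_zero]
        · exfalso
          apply hlj
          apply hγ
          exact key_injective (le_antisymm ((h l).2 _ hc) (hmin l hl))
      · intro hn
        exact absurd hj hn
    by_cases hij : i = j
    · rw [hij]; exact hj0
    · refine ih (s.erase j) (Finset.erase_ssubset hj) g ?_ i (Finset.mem_erase.2 ⟨hij, hi⟩)
      rw [← Finset.add_sum_erase s _ hj, hj0, zero_smul, zero_add] at hg
      exact hg

/-- any basis with pairwise different leading indices computes the sum of the orders -/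
theorem sum_deg_eq_ordSum (U : Submodule k (Fin r → MvPowerSeries (Fin d) k))
    [FiniteDimensional k U] {ι : Type*} [Fintype ι] (b : Module.Basis ι k U)
    (γ : ι → Fin r × (Fin d → ℕ)) (hγ : Function.Injective γ)
    (h : ∀ i, IsLead (b i : Fin r → MvPowerSeries (Fin d) k) (γ i)) :
    ∑ i, deg (γ i).2 = ordSum U := by
  classical
  have himg : Finset.univ.image γ = (leads_finite U).toFinset := by
    apply Finset.eq_of_subset_of_card_le
    · intro x hx
      obtain ⟨i, -, rfl⟩ := Finset.mem_image.1 hx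
      simp only [Set.Finite.mem_toFinset]
      exact ⟨b i, (b i).2, h i⟩
    · rw [card_leads, Finset.card_image_of_injective _ hγ, Finset.card_univ,
        Module.finrank_eq_card_basis b]
  rw [ordSum, ← himg, Finset.sum_image (fun a _ b _ hab => hγ hab)]

/-- there is a basis with prescribed leading indices -/
theorem exists_basis_isLead (U : Submodule k (Fin r → MvPowerSeries (Fin d) k))
    [FiniteDimensional k U] :
    ∃ b : Module.Basis (leads U) k U,
      ∀ γ : leads U, IsLead (b γ : Fin r → MvPowerSeries (Fin d) k) γ := by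
  classical
  haveI : Fintype (leads U) := (leads_finite U).fintype
  choose f hfU hf using fun γ : leads U => γ.2
  have hli : LinearIndependent k (fun γ : leads U => (⟨f γ, hfU γ⟩ : U)) := by
    have h1 := linearIndependent_of_isLead f (fun γ => (γ : Fin r × (Fin d → ℕ)))
      Subtype.val_injective hf
    exact LinearIndependent.of_comp U.subtype h1
  have hcard : Fintype.card (leads U) = Module.finrank k U := by
    rw [← card_leads U, ← Set.toFinset_card]
    congr 1
    ext γ
    simp
  refine ⟨basisOfLinearIndependentOfCardEqFinrank' _ hli hcard, fun γ => ?_⟩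
  rw [coe_basisOfLinearIndependentOfCardEqFinrank']
  exact hf γ

/-- the leading exponents of a space of power series -/
def leads1 (G : Submodule k (MvPowerSeries (Fin d) k)) : Set (Fin d → ℕ) :=
  {η | ∃ g ∈ G, IsLead1 g η}

/-- a power series as a vector with one component -/
noncomputable def vec1 : MvPowerSeries (Fin d) k →ₗ[k] (Fin 1 → MvPowerSeries (Fin d) k) where
  toFun g := fun _ => g
  map_add' _ _ := rfl
  map_smul' _ _ := rfl

theorem vec1_injective : Function.Injective (vec1 : MvPowerSeries (Fin d) k →ₗ[k] _) := by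
  intro a b h
  exact congrFun h 0

theorem isLead_vec1 {g : MvPowerSeries (Fin d) k} {η : Fin d → ℕ} :
    IsLead (vec1 g) (0, η) ↔ IsLead1 g η := by
  constructor
  · rintro ⟨h1, h2⟩
    refine ⟨h1, fun η' hη' => ?_⟩
    have := h2 (0, η') hη'
    rw [key_le_iff] at this
    rw [key1_le_iff]
    simpa using this
  · rintro ⟨h1, h2⟩
    refine ⟨h1, ?_⟩
    rintro ⟨y, η'⟩ hη'
    have := h2 η' hη'
    rw [key1_le_iff] at this
    rw [key_le_iff]
    have hy : y = 0 := Subsingleton.elim _ _
    subst hy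
    simpa using this

theorem leads_map_vec1 (G : Submodule k (MvPowerSeries (Fin d) k)) :
    leads (G.map vec1) = (fun η => ((0 : Fin 1), η)) '' leads1 G := by
  ext γ
  constructor
  · rintro ⟨f, ⟨g, hg, rfl⟩, hl⟩
    obtain ⟨y, η⟩ := γ
    have hy : y = 0 := Subsingleton.elim _ _
    subst hy
    exact ⟨η, ⟨g, hg, isLead_vec1.1 hl⟩, rfl⟩
  · rintro ⟨η, ⟨g, hg, hl⟩, rfl⟩
    exact ⟨vec1 g, ⟨g, hg, rfl⟩, isLead_vec1.2 hl⟩

theorem leads1_finite (G : Submodule k (MvPowerSeries (Fin d) k)) [FiniteDimensional k G] :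
    (leads1 G).Finite := by
  have h := leads_finite (G.map vec1)
  rw [leads_map_vec1] at h
  exact Set.Finite.of_finite_image h (fun a _ b _ hab => (Prod.mk.inj hab).2)

theorem ncard_leads1 (G : Submodule k (MvPowerSeries (Fin d) k)) [FiniteDimensional k G] :
    (leads1 G).ncard = Module.finrank k G := by
  have h := ncard_leads (G.map vec1)
  rw [leads_map_vec1, Set.ncard_image_of_injective _ (fun a b hab => (Prod.mk.inj hab).2)] at h
  rw [h]
  exact (Submodule.equivMapOfInjective _ vec1_injective G).finrank_eq.symm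

theorem card_leads1 (G : Submodule k (MvPowerSeries (Fin d) k)) [FiniteDimensional k G] :
    (leads1_finite G).toFinset.card = Module.finrank k G := by
  rw [← ncard_leads1 G, Set.ncard_eq_toFinset_card _ (leads1_finite G)]

/-- **The counting inequality** (Part 2 (a)-(d)). -/
theorem count_leads (hd : 0 < d) {ι : Type*} (s : Finset ι) (r : ι → ℕ)
    (U : ℕ → (i : ι) → Submodule k (Fin (r i) → MvPowerSeries (Fin d) k))
    [∀ M i, FiniteDimensional k (U M i)]
    (G : ℕ → Submodule k (MvPowerSeries (Fin d) k)) [∀ M, FiniteDimensional k (G M)]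
    (hmul : ∀ M M' : ℕ, ∀ i ∈ s, ∀ g ∈ G M', ∀ f ∈ U M i, (fun y => g * f y) ∈ U (M + M') i)
    (r0 r1 : ℕ) (hcube : ∀ ε : Fin d → ℕ, (∀ j, ε j ≤ 1) → ∃ g ∈ G r1, IsLead1 g ε)
    (hG : G r0 ≠ ⊥) (K m : ℕ) (hK : K * (r0 + r1) ≤ m) :
    (d : ℝ) * ((d.factorial : ℝ) ^ ((1 : ℝ) / d)) *
        ((Module.finrank k (G r0) : ℝ) ^ ((1 : ℝ) / d)) *
        ∑ j ∈ range K, ∑ i ∈ s, (Module.finrank k (U (m - (j + 1) * (r0 + r1)) i) : ℝ)
      - (d + 1) * ∑ i ∈ s, (Module.finrank k (U m i) : ℝ) ≤
    ∑ i ∈ s, (ordSum (U m i) : ℝ) := by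
  classical
  -- index set: pairs (i, y)
  set A : ℕ → (Σ i : ι, Fin (r i)) → Finset (Fin d → ℕ) := fun M a =>
    ((leads_finite (U M a.1)).toFinset.filter (fun γ => γ.1 = a.2)).image (fun γ => γ.2) with hA
  set S : Finset (Σ i : ι, Fin (r i)) := s.sigma (fun i => Finset.univ) with hS
  have hmemA : ∀ M (a : Σ i : ι, Fin (r i)) (ξ : Fin d → ℕ),
      ξ ∈ A M a ↔ ∃ f ∈ U M a.1, IsLead f (a.2, ξ) := by
    intro M a ξ
    simp only [hA, Finset.mem_image, Finset.mem_filter, Set.Finite.mem_toFinset]
    constructor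
    · rintro ⟨⟨y, ξ'⟩, ⟨⟨f, hf, hl⟩, hy⟩, rfl⟩
      simp only at hy
      subst hy
      exact ⟨f, hf, hl⟩
    · rintro ⟨f, hf, hl⟩
      exact ⟨(a.2, ξ), ⟨⟨f, hf, hl⟩, rfl⟩, rfl⟩
  have hinj : ∀ (i : ι) (y : Fin (r i)) (M : ℕ),
      Set.InjOn (fun γ : Fin (r i) × (Fin d → ℕ) => γ.2)
        ((leads_finite (U M i)).toFinset.filter (fun γ => γ.1 = y) : Finset _) := by
    intro i y M γ hγ γ' hγ' h
    simp only [Finset.coe_filter, Set.mem_setOf_eq] at hγ hγ'
    exact Prod.ext (hγ.2.trans hγ'.2.symm) h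
  have hcard : ∀ M, ∑ a ∈ S, ((A M a).card : ℝ) = ∑ i ∈ s, (Module.finrank k (U M i) : ℝ) := by
    intro M
    rw [hS, Finset.sum_sigma]
    refine Finset.sum_congr rfl fun i _ => ?_
    rw [← card_leads (U M i)]
    have h1 : ∀ y : Fin (r i), (A M ⟨i, y⟩).card =
        ((leads_finite (U M i)).toFinset.filter (fun γ => γ.1 = y)).card := fun y =>
      Finset.card_image_of_injOn (hinj i y M)
    simp_rw [h1]
    rw [← Nat.cast_sum]
    congr 1
    exact (Finset.card_eq_sum_card_fiberwise (fun γ _ => Finset.mem_univ γ.1)).symm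
  have hdeg : ∑ a ∈ S, ∑ ξ ∈ A m a, (deg ξ : ℝ) = ∑ i ∈ s, (ordSum (U m i) : ℝ) := by
    rw [hS, Finset.sum_sigma]
    refine Finset.sum_congr rfl fun i _ => ?_
    have h1 : ∀ y : Fin (r i), ∑ ξ ∈ A m ⟨i, y⟩, (deg ξ : ℝ) =
        ∑ γ ∈ (leads_finite (U m i)).toFinset.filter (fun γ => γ.1 = y), (deg γ.2 : ℝ) := fun y =>
      Finset.sum_image (hinj i y m)
    simp_rw [h1]
    rw [ordSum, Nat.cast_sum]
    exact Finset.sum_fiberwise (leads_finite (U m i)).toFinset (fun γ => γ.1)
      (fun γ => (deg γ.2 : ℝ))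
  have hBne : (leads1_finite (G r0)).toFinset.Nonempty := by
    obtain ⟨g, hg, hg0⟩ := Submodule.exists_mem_ne_zero_of_ne_bot hG
    obtain ⟨η, hη⟩ := exists_isLead1 hg0
    exact ⟨η, by simpa using ⟨g, hg, hη⟩⟩
  have hAB : ∀ M, ∀ a ∈ S, ∀ ξ ∈ A M a, ∀ η ∈ (leads1_finite (G r0)).toFinset,
      ∀ ε : Fin d → ℕ, (∀ i, ε i ≤ 1) → ξ + η + ε ∈ A (M + (r0 + r1)) a := by
    rintro M ⟨i, y⟩ ha ξ hξ η hη ε hε
    have his : i ∈ s := (Finset.mem_sigma.1 ha).1
    rw [hmemA] at hξ ⊢
    obtain ⟨f, hf, hl⟩ := hξ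
    obtain ⟨g, hg, hgl⟩ := (Set.Finite.mem_toFinset _).1 hη
    obtain ⟨g', hg', hgl'⟩ := hcube ε hε
    have h1 := IsLead.mul hgl hl
    have h2 := IsLead.mul hgl' h1
    refine ⟨fun y => g' * (g * f y), ?_, ?_⟩
    · have h3 := hmul (M + r0) r1 i his g' hg' _ (hmul M r0 i his g hg f hf)
      rwa [add_assoc] at h3
    · have : ξ + η + ε = ε + (η + ξ) := by
        rw [add_comm ξ η, add_comm ε]
      rw [this]
      exact h2
  have := count_main hd S A (leads1_finite (G r0)).toFinset hBne (r0 + r1) hAB K m hK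
  rw [hcard, hdeg, card_leads1] at this
  simp_rw [hcard] at this
  exact this

end Vale.Agent.P271.H207
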