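import Vale.Agent.P271.H207.CountLead
import Vale.Agent.P271.Filt.Lex
import Vale.Agent.P271.Filt.Lead
import Vale.Agent.P271.Filt.Quot

/-!
# P271 / COUNT-(a): refinement of a filtration by the orders of vanishing on the graded pieces

`F` a filtration of `V`; `θ λ : F.sub λ → k[[x_1, …, x_d]] ^ (r λ)` linear with kernel
`F.subGt λ`.  We obtain leading data with one dimensional leaves on `V`, the lexicographic
refinement of `F` by the orders of vanishing of the graded pieces, its total weight and the total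
weight of its quotients by the steps of `F`.
-/

set_option linter.all false

open Finset Module

namespace Vale.Agent.P271.H207

open Vale.Agent.P271.F507 Vale.Agent.P271.Filt Vale.Agent.P271.Filt.Wt

variable {K : Type*} [Field K] {V : Type*} [AddCommGroup V] [Module K V] {d : ℕ}

/-- the same order, with the component as a natural number -/
def key2 {r : ℕ} (γ : Fin r × (Fin d → ℕ)) : ℕ ×ₗ (ℕ ×ₗ Lex (Fin d → ℕ)) :=
  toLex (deg γ.2, toLex ((γ.1 : ℕ), toLex γ.2))

theorem key2_le_iff {r : ℕ} {a b : Fin r × (Fin d → ℕ)} : key2 a ≤ key2 b ↔ key a ≤ key b := by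
  rw [key_le_iff, key2, key2, Prod.Lex.toLex_le_toLex, Prod.Lex.toLex_le_toLex]
  simp only [Fin.lt_def, Fin.ext_iff]

theorem key2_injective {r : ℕ} : Function.Injective (key2 : Fin r × (Fin d → ℕ) → _) := by
  intro a b h
  exact key_injective (le_antisymm (key2_le_iff.1 h.le) (key2_le_iff.1 h.ge))

theorem key2_lt_iff {r : ℕ} {a b : Fin r × (Fin d → ℕ)} : key2 a < key2 b ↔ key a < key b := by
  rw [lt_iff_not_ge, lt_iff_not_ge, key2_le_iff]

/-- coordinates on the graded pieces with values in vectors of power series -/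
structure GrData (F : Wt K V) (d : ℕ) where
  r : ℝ → ℕ
  θ : ∀ a : ℝ, F.sub a →ₗ[K] (Fin (r a) → MvPowerSeries (Fin d) K)
  ker : ∀ (a : ℝ) (x : F.sub a), θ a x = 0 ↔ (x : V) ∈ F.subGt a

namespace GrData

variable {F : Wt K V} (D : GrData F d)

/-- `(a, γ)` is the leading datum of `x` -/
def IsLd (x : V) (a : ℝ) (γ : Fin (D.r a) × (Fin d → ℕ)) : Prop :=
  ∃ h : x ∈ F.sub a, IsLead (D.θ a ⟨x, h⟩) γ

variable {D}

theorem IsLd.ne_zero {x : V} {a : ℝ} {γ} (h : D.IsLd x a γ) : x ≠ 0 := by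
  obtain ⟨h1, h2⟩ := h
  rintro rfl
  apply h2.ne_zero
  have : (⟨0, h1⟩ : F.sub a) = 0 := rfl
  rw [this, map_zero]

theorem IsLd.w_eq {x : V} {a : ℝ} {γ} (h : D.IsLd x a γ) : F.w x = a := by
  have hx := h.ne_zero
  obtain ⟨h1, h2⟩ := h
  apply le_antisymm _ (h1 hx)
  by_contra hlt
  push Not at hlt
  apply h2.ne_zero
  rw [D.ker]
  exact fun _ => hlt

theorem exists_isLd {x : V} (hx : x ≠ 0) : ∃ γ, D.IsLd x (F.w x) γ := by
  have h1 : D.θ (F.w x) ⟨x, F.self_mem_sub x⟩ ≠ 0 := by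
    rw [Ne, D.ker]
    intro h
    exact lt_irrefl _ (h hx)
  obtain ⟨γ, hγ⟩ := exists_isLead h1
  exact ⟨γ, F.self_mem_sub x, hγ⟩

open Classical in
variable (D) in
/-- the leading datum -/
noncomputable def ld (x : V) : ℝ ×ₗ (ℕ ×ₗ (ℕ ×ₗ Lex (Fin d → ℕ))) :=
  if h : ∃ γ, D.IsLd x (F.w x) γ then toLex (F.w x, key2 h.choose) else
    toLex (0, toLex (0, toLex (0, toLex 0)))

theorem IsLd.ld_eq {x : V} {a : ℝ} {γ} (h : D.IsLd x a γ) : D.ld x = toLex (a, key2 γ) := by
  have hw := h.w_eq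
  subst hw
  have hex : ∃ γ, D.IsLd x (F.w x) γ := ⟨γ, h⟩
  rw [ld, dif_pos hex]
  obtain ⟨h1, h2⟩ := hex.choose_spec
  obtain ⟨h3, h4⟩ := h
  rw [IsLead.unique h2 h4]

/-- the order of vanishing of the leading part of `x` -/
noncomputable def _root_.Vale.Agent.P271.H207.GrData.h (D : GrData F d) (x : V) : ℝ :=
  ((ofLex (ofLex (D.ld x)).2).1 : ℕ)

theorem IsLd.h_eq {x : V} {a : ℝ} {γ} (h : D.IsLd x a γ) : D.h x = deg γ.2 := by
  rw [GrData.h, h.ld_eq]
  rfl

theorem isLead_add {r : ℕ} {f g : Fin r → MvPowerSeries (Fin d) K} {γ : Fin r × (Fin d → ℕ)}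
    (h : IsLead (f + g) γ) :
    (∃ γ', IsLead f γ' ∧ key γ' ≤ key γ) ∨ (∃ γ', IsLead g γ' ∧ key γ' ≤ key γ) := by
  have h1 := h.1
  rw [cf_add] at h1
  by_cases hf : cf f γ = 0
  · right
    rw [hf, zero_add] at h1
    have hg0 : g ≠ 0 := by rintro rfl; simp at h1
    obtain ⟨γ', hγ'⟩ := exists_isLead hg0
    exact ⟨γ', hγ', hγ'.2 _ h1⟩
  · left
    have hf0 : f ≠ 0 := by rintro rfl; simp at hf
    obtain ⟨γ', hγ'⟩ := exists_isLead hf0
    exact ⟨γ', hγ', hγ'.2 _ hf⟩

theorem leaf (D : GrData F d) : Leaf K D.ld where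
  smul := by
    intro c x hc hx
    obtain ⟨γ, hγ⟩ := D.exists_isLd hx
    obtain ⟨h1, h2⟩ := id hγ
    have h3 : D.IsLd (c • x) (F.w x) γ := by
      refine ⟨(F.sub _).smul_mem c h1, ?_⟩
      have : (⟨c • x, (F.sub _).smul_mem c h1⟩ : F.sub (F.w x)) = c • ⟨x, h1⟩ := rfl
      rw [this, map_smul]
      refine ⟨?_, fun γ' hγ' => h2.2 γ' ?_⟩
      · rw [cf_smul]; exact mul_ne_zero hc h2.1
      · rw [cf_smul] at hγ'; exact right_ne_zero_of_mul hγ'
    rw [h3.ld_eq, hγ.ld_eq]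
  add := by
    intro x y hx hy hxy
    obtain ⟨γ, hγ⟩ := D.exists_isLd hx
    obtain ⟨γ', hγ'⟩ := D.exists_isLd hy
    obtain ⟨γs, hγs⟩ := D.exists_isLd hxy
    rw [hγ.ld_eq, hγ'.ld_eq, hγs.ld_eq]
    have hadd := F.add' x y hx hy hxy
    rcases hadd.lt_or_eq with hlt | heq
    · rcases min_lt_iff.1 hlt with h | h
      · exact (min_le_left _ _).trans (Prod.Lex.toLex_le_toLex.2 (Or.inl h))
      · exact (min_le_right _ _).trans (Prod.Lex.toLex_le_toLex.2 (Or.inl h))
    · -- both are in `sub (w (x + y))`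
      obtain ⟨h1, h2⟩ := id hγs
      have hxa : x ∈ F.sub (F.w (x + y)) := fun _ => heq ▸ min_le_left _ _
      have hya : y ∈ F.sub (F.w (x + y)) := fun _ => heq ▸ min_le_right _ _
      have hsum : (⟨x + y, h1⟩ : F.sub (F.w (x + y))) = ⟨x, hxa⟩ + ⟨y, hya⟩ := rfl
      rw [hsum, map_add] at h2
      rcases isLead_add h2 with ⟨δ, hδ, hle⟩ | ⟨δ, hδ, hle⟩
      · have h3 : D.IsLd x (F.w (x + y)) δ := ⟨hxa, hδ⟩
        rw [← hγ.ld_eq, h3.ld_eq]
        refine (min_le_left _ _).trans (Prod.Lex.toLex_le_toLex.2 (Or.inr ⟨rfl, ?_⟩))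
        exact key2_le_iff.2 hle
      · have h3 : D.IsLd y (F.w (x + y)) δ := ⟨hya, hδ⟩
        rw [← hγ'.ld_eq, h3.ld_eq]
        refine (min_le_right _ _).trans (Prod.Lex.toLex_le_toLex.2 (Or.inr ⟨rfl, ?_⟩))
        exact key2_le_iff.2 hle
  leaf := by
    intro x y hx hy hxy
    obtain ⟨γ, hγ⟩ := D.exists_isLd hx
    obtain ⟨γ', hγ'⟩ := D.exists_isLd hy
    rw [hγ.ld_eq, hγ'.ld_eq] at hxy
    have hw : F.w x = F.w y := congrArg (fun z => (ofLex z).1) hxy
    have hk : key2 γ = key2 γ' := congrArg (fun z => (ofLex z).2) hxy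
    -- transport `γ'` to weight `F.w x`
    have hex : ∃ δ, D.IsLd y (F.w x) δ := by rw [hw]; exact D.exists_isLd hy
    obtain ⟨δ, hδ⟩ := hex
    have hδk : key2 γ = key2 δ := by
      have e1 := hγ'.ld_eq
      rw [hδ.ld_eq] at e1
      rw [hk]
      exact (congrArg (fun z => (ofLex z).2) e1).symm
    have hδγ : δ = γ := (key2_injective hδk).symm
    subst hδγ
    obtain ⟨h1, h2⟩ := id hγ
    obtain ⟨h3, h4⟩ := id hδ
    set f := D.θ (F.w x) ⟨x, h1⟩
    set g := D.θ (F.w x) ⟨y, h3⟩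
    refine ⟨cf f δ / cf g δ, ?_⟩
    set c := cf f δ / cf g δ
    by_cases h0 : x - c • y = 0
    · exact Or.inl h0
    right
    obtain ⟨ε, hε⟩ := D.exists_isLd h0
    have hmem : x - c • y ∈ F.sub (F.w x) :=
      (F.sub _).sub_mem h1 ((F.sub _).smul_mem c h3)
    have hge : F.w x ≤ F.w (x - c • y) := hmem h0
    rw [hγ.ld_eq, hε.ld_eq]
    rcases hge.lt_or_eq with hlt | heq
    · exact Prod.Lex.toLex_lt_toLex.2 (Or.inl hlt)
    · have hex2 : ∃ ε', D.IsLd (x - c • y) (F.w x) ε' := by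
        have := D.exists_isLd h0
        rwa [← heq] at this
      obtain ⟨ε', hε'⟩ := hex2
      rw [← hε.ld_eq, hε'.ld_eq]
      refine Prod.Lex.toLex_lt_toLex.2 (Or.inr ⟨rfl, ?_⟩)
      obtain ⟨h5, h6⟩ := id hε'
      have hsub : (⟨x - c • y, h5⟩ : F.sub (F.w x)) = ⟨x, h1⟩ - c • ⟨y, h3⟩ := rfl
      have hθ : D.θ (F.w x) ⟨x - c • y, h5⟩ = f + (-c) • g := by
        rw [hsub, map_sub, map_smul, sub_eq_add_neg, neg_smul]
      rw [hθ] at h6
      have hz : cf (f + (-c) • g) δ = 0 := by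
        rw [cf_add, cf_smul]
        have : cf g δ ≠ 0 := h4.1
        simp only [c]
        field_simp
        ring
      have hne : ε' ≠ δ := by
        rintro rfl
        exact h6.1 hz
      rw [key2_lt_iff]
      have hle : key δ ≤ key ε' := by
        rcases isLead_add h6 with ⟨η, hη, hle⟩ | ⟨η, hη, hle⟩
        · rwa [hη.unique h2] at hle
        · have hη' : IsLead g η := by
            have hc : -c ≠ 0 := by
              intro hc
              apply hη.ne_zero
              rw [hc, zero_smul]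
            refine ⟨?_, fun γ'' hγ'' => hη.2 γ'' ?_⟩
            · have := hη.1
              rw [cf_smul] at this
              exact right_ne_zero_of_mul this
            · rw [cf_smul]; exact mul_ne_zero hc hγ''
          rwa [hη'.unique h4] at hle
      exact lt_of_le_of_ne hle (fun h => hne (key_injective h).symm)

end GrData

end Vale.Agent.P271.H207
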