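import Vale.Agent.P271.H207.GrData

/-!
# P271 / COUNT-(a): the lexicographic refinement by orders of vanishing, total weights
-/

set_option linter.all false

open Finset Module

namespace Vale.Agent.P271.H207

open Vale.Agent.P271.F507 Vale.Agent.P271.Filt Vale.Agent.P271.Filt.Wt

variable {K : Type*} [Field K] {V : Type*} [AddCommGroup V] [Module K V] {d : ℕ}

/-- the type of leading data -/
abbrev LT (d : ℕ) : Type := ℝ ×ₗ (ℕ ×ₗ (ℕ ×ₗ Lex (Fin d → ℕ)))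

theorem key2_deg_le {r r' : ℕ} {γ : Fin r × (Fin d → ℕ)} {γ' : Fin r' × (Fin d → ℕ)}
    (h : key2 γ ≤ key2 γ') : deg γ.2 ≤ deg γ'.2 := by
  rw [key2, key2, Prod.Lex.toLex_le_toLex] at h
  rcases h with h | h
  · exact h.le
  · exact h.1.le

theorem lex_le_snd {α β : Type*} [LinearOrder α] [LinearOrder β] {a b : α} {x y : β}
    (h : toLex (a, x) ≤ toLex (b, y)) (hab : a = b) : x ≤ y := by
  rcases Prod.Lex.toLex_le_toLex.1 h with h | h
  · exact absurd (hab ▸ h : a < a) (lt_irrefl _)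
  · exact h.2

namespace GrData

variable {F : Wt K V} (D : GrData F d)

/-- the image of the graded piece of weight `a` in `k[[x]] ^ r` -/
noncomputable def U (a : ℝ) : Submodule K (Fin (D.r a) → MvPowerSeries (Fin d) K) :=
  LinearMap.range (D.θ a)

theorem mem_U {a : ℝ} {f : Fin (D.r a) → MvPowerSeries (Fin d) K} :
    f ∈ D.U a ↔ ∃ (x : V) (h : x ∈ F.sub a), D.θ a ⟨x, h⟩ = f := by
  rw [U, LinearMap.mem_range]
  constructor
  · rintro ⟨⟨x, h⟩, rfl⟩
    exact ⟨x, h, rfl⟩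
  · rintro ⟨x, h, rfl⟩
    exact ⟨⟨x, h⟩, rfl⟩

theorem mem_leads_U {a : ℝ} {γ : Fin (D.r a) × (Fin d → ℕ)} :
    γ ∈ leads (D.U a) ↔ ∃ x : V, D.IsLd x a γ := by
  constructor
  · rintro ⟨f, hf, hl⟩
    obtain ⟨x, h, rfl⟩ := D.mem_U.1 hf
    exact ⟨x, h, hl⟩
  · rintro ⟨x, h, hl⟩
    exact ⟨_, D.mem_U.2 ⟨x, h, rfl⟩, hl⟩

section FD

variable [FiniteDimensional K V]

instance finiteDimensional_U (a : ℝ) : FiniteDimensional K (D.U a) := by
  rw [U]; infer_instance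

theorem finrank_U (a : ℝ) :
    finrank K (D.U a) + finrank K (F.subGt a) = finrank K (F.sub a) := by
  have h := LinearMap.finrank_range_add_finrank_ker (D.θ a)
  have h2 : finrank K (LinearMap.ker (D.θ a)) = finrank K (F.subGt a) := by
    have e : LinearMap.ker (D.θ a) = (F.subGt a).comap (F.sub a).subtype := by
      ext x
      rw [LinearMap.mem_ker, D.ker, Submodule.mem_comap, Submodule.subtype_apply]
    rw [e]
    exact (Submodule.comapSubtypeEquivOfLe (F.subGt_le_sub a)).finrank_eq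
  rw [h2] at h
  exact h

/-- the leading data of `V` -/
theorem mem_img {γ : ℝ ×ₗ (ℕ ×ₗ (ℕ ×ₗ Lex (Fin d → ℕ)))} :
    γ ∈ D.leaf.img ↔ ∃ (a : ℝ) (δ : Fin (D.r a) × (Fin d → ℕ)), δ ∈ leads (D.U a) ∧
      γ = toLex (a, key2 δ) := by
  rw [Leaf.mem_img]
  constructor
  · rintro ⟨x, hx, rfl⟩
    obtain ⟨δ, hδ⟩ := D.exists_isLd hx
    exact ⟨F.w x, δ, D.mem_leads_U.2 ⟨x, hδ⟩, hδ.ld_eq⟩
  · rintro ⟨a, δ, hδ, rfl⟩
    obtain ⟨x, hx⟩ := D.mem_leads_U.1 hδ
    exact ⟨x, hx.ne_zero, hx.ld_eq⟩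

open Classical in
/-- sums over the leading data with weights in a finite set of jumps -/
theorem sum_img (s : Finset ℝ) (τ : ℝ) (hs : ∀ a ∈ s, a < τ)
    (hs2 : ∀ x : V, x ≠ 0 → F.w x < τ → F.w x ∈ s) (φ : ℝ → ℕ → ℝ) :
    ∑ γ ∈ D.leaf.img with (ofLex γ).1 < τ, φ (ofLex γ).1 (ofLex (ofLex γ).2).1 =
      ∑ a ∈ s, ∑ δ ∈ (leads_finite (D.U a)).toFinset, φ a (deg δ.2) := by
  rw [← Finset.sum_fiberwise_of_maps_to (t := s) (g := fun γ => (ofLex γ).1)]
  · refine Finset.sum_congr rfl fun a ha => ?_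
    symm
    refine Finset.sum_bij (fun δ _ => (toLex (a, key2 δ) : ℝ ×ₗ (ℕ ×ₗ (ℕ ×ₗ Lex (Fin d → ℕ)))))
      ?_ ?_ ?_ ?_
    · intro δ hδ
      rw [Finset.mem_filter, Finset.mem_filter]
      exact ⟨⟨D.mem_img.2 ⟨a, δ, by simpa using hδ, rfl⟩, hs a ha⟩, rfl⟩
    · intro δ _ δ' _ h
      exact key2_injective (congrArg (fun z => (ofLex z).2) h)
    · intro γ hγ
      rw [Finset.mem_filter, Finset.mem_filter] at hγ
      obtain ⟨⟨h1, h2⟩, h3⟩ := hγ
      obtain ⟨a', δ, hδ, rfl⟩ := D.mem_img.1 h1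
      simp only [ofLex_toLex] at h3
      subst h3
      exact ⟨δ, by simpa using hδ, rfl⟩
    · intro δ hδ
      rfl
  · intro γ hγ
    rw [Finset.mem_filter, Leaf.mem_img] at hγ
    obtain ⟨⟨x, hx, rfl⟩, h2⟩ := hγ
    obtain ⟨δ, hδ⟩ := D.exists_isLd hx
    rw [hδ.ld_eq] at h2 ⊢
    exact hs2 x hx h2

/-- dimension count: the graded pieces below `τ` -/
theorem sum_finrank_U (s : Finset ℝ) (τ : ℝ) (hs : ∀ a ∈ s, a < τ)
    (hs2 : ∀ x : V, x ≠ 0 → F.w x < τ → F.w x ∈ s) :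
    ∑ a ∈ s, finrank K (D.U a) + finrank K (F.sub τ) = finrank K V := by
  classical
  -- count basis vectors
  have hH := D.leaf
  have h1 : (D.leaf.img.filter (fun γ => (ofLex γ).1 < τ)).card = ∑ a ∈ s, finrank K (D.U a) := by
    have h := D.sum_img s τ hs hs2 (fun _ _ => 1)
    simp only [Finset.sum_const, nsmul_eq_mul, mul_one] at h
    have h' : ((D.leaf.img.filter (fun γ => (ofLex γ).1 < τ)).card : ℝ) =
        ((∑ a ∈ s, finrank K (D.U a) : ℕ) : ℝ) := by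
      rw [h, Nat.cast_sum]
      exact Finset.sum_congr rfl fun a _ => by rw [card_leads]
    exact_mod_cast h'
  have hfst : ∀ j : D.leaf.img, F.w (D.leaf.basis j) = (ofLex (j : LT d)).1 := by
    intro j
    have hne := D.leaf.basis.ne_zero j
    obtain ⟨δ, hδ⟩ := D.exists_isLd hne
    have e := hδ.ld_eq
    rw [D.leaf.lead_basis] at e
    rw [e]
    rfl
  have h2 : finrank K (F.sub τ) = (D.leaf.img.filter (fun γ => ¬ (ofLex γ).1 < τ)).card := by
    have hb : F.Adapted D.leaf.basis := by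
      refine D.leaf.adapted (g := fun γ => (ofLex γ).1) ?_ ?_
      · intro γ _ γ' _ h
        rcases Prod.Lex.le_iff.1 h with h | h
        · exact h.le
        · exact h.1.le
      · intro x hx
        obtain ⟨δ, hδ⟩ := D.exists_isLd hx
        rw [hδ.ld_eq]
        rfl
    have hset : F.sub τ = Submodule.span K
        (Set.range (fun j : {j : D.leaf.img // ¬ (ofLex (j : LT d)).1 < τ} =>
          D.leaf.basis j)) := by
      rw [hb.sub_eq_span]
      congr 1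
      ext y
      constructor
      · rintro ⟨j, hj, rfl⟩
        have hj' : τ ≤ F.w (D.leaf.basis j) := hj
        rw [hfst j] at hj'
        exact ⟨⟨j, not_lt.2 hj'⟩, rfl⟩
      · rintro ⟨⟨j, hj⟩, rfl⟩
        refine ⟨j, ?_, rfl⟩
        show τ ≤ F.w (D.leaf.basis j)
        rw [hfst j]
        exact not_lt.1 hj
    have hli : LinearIndependent K (fun j : {j : D.leaf.img // ¬ (ofLex (j : LT d)).1 < τ} =>
        D.leaf.basis j) :=
      D.leaf.basis.linearIndependent.comp _ Subtype.val_injective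
    rw [hset, finrank_span_eq_card hli, Fintype.card_subtype]
    refine Finset.card_bij (fun j _ => (j : ℝ ×ₗ (ℕ ×ₗ (ℕ ×ₗ Lex (Fin d → ℕ))))) ?_ ?_ ?_
    · intro j hj
      exact Finset.mem_filter.2 ⟨j.2, (Finset.mem_filter.1 hj).2⟩
    · intro a _ b _ hab
      exact Subtype.ext hab
    · intro γ hγ
      rw [Finset.mem_filter] at hγ
      exact ⟨⟨γ, hγ.1⟩, Finset.mem_filter.2 ⟨Finset.mem_univ _, hγ.2⟩, rfl⟩
  rw [h2, ← h1, ← D.leaf.card_img]
  exact Finset.card_filter_add_card_filter_not (fun γ : LT d => (ofLex γ).1 < τ)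

/-- the order function is bounded -/
theorem exists_h_le : ∃ M : ℝ, ∀ x : V, x ≠ 0 → |D.h x| ≤ M := by
  classical
  refine ⟨∑ γ ∈ D.leaf.img, ((ofLex (ofLex γ).2).1 : ℝ), fun x hx => ?_⟩
  rw [GrData.h, abs_of_nonneg (by positivity)]
  exact Finset.single_le_sum (f := fun γ : ℝ ×ₗ (ℕ ×ₗ (ℕ ×ₗ Lex (Fin d → ℕ))) =>
    ((ofLex (ofLex γ).2).1 : ℝ)) (fun _ _ => by positivity) (D.leaf.lead_mem_img hx)

theorem exists_alpha' : ∃ α0 : ℝ, ∀ α, α0 ≤ α → LexStrict F D.h α := by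
  obtain ⟨M, hM⟩ := D.exists_h_le
  exact Wt.exists_alpha F D.h M hM

omit [FiniteDimensional K V] in
theorem lexData {α : ℝ} (hs : LexStrict F D.h α) : LexData F D.h α where
  smul := by
    intro c x hc hx
    rw [GrData.h, GrData.h, D.leaf.smul c x hc hx]
  add := by
    intro x y hx hy hxy hw hw2
    have h1 := D.leaf.add x y hx hy hxy
    obtain ⟨γ, hγ⟩ := D.exists_isLd hx
    obtain ⟨γ', hγ'⟩ := D.exists_isLd hy
    obtain ⟨γs, hγs⟩ := D.exists_isLd hxy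
    rw [hγ.ld_eq, hγ'.ld_eq, hγs.ld_eq] at h1
    rw [hγ.h_eq, hγ'.h_eq, hγs.h_eq]
    rcases min_le_iff.1 h1 with h | h
    · refine (min_le_left _ _).trans ?_
      exact_mod_cast key2_deg_le (lex_le_snd h hw2.symm)
    · refine (min_le_right _ _).trans ?_
      exact_mod_cast key2_deg_le (lex_le_snd h (hw.symm.trans hw2.symm))
  add_lt := by
    intro x y hx hy hlt
    obtain ⟨h1, h2⟩ := F.w_add_of_lt hx hy hlt
    obtain ⟨γ, hγ⟩ := D.exists_isLd hx
    obtain ⟨h3, h4⟩ := id hγ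
    have hyg : y ∈ F.subGt (F.w x) := fun _ => hlt
    have hys : y ∈ F.sub (F.w x) := F.subGt_le_sub _ hyg
    have hθy : D.θ (F.w x) ⟨y, hys⟩ = 0 := (D.ker _ _).2 hyg
    have h5 : D.IsLd (x + y) (F.w x) γ := by
      refine ⟨(F.sub _).add_mem h3 hys, ?_⟩
      have : (⟨x + y, (F.sub _).add_mem h3 hys⟩ : F.sub (F.w x)) = ⟨x, h3⟩ + ⟨y, hys⟩ := rfl
      rw [this, map_add, hθy, add_zero]
      exact h4
    rw [h5.h_eq, hγ.h_eq]
  mono := fun x y hx hy hlt => (hs x y hx hy hlt).le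

/-- the lexicographic refinement of `F` by the orders of vanishing of the graded pieces -/
noncomputable def lexW {α : ℝ} (hs : LexStrict F D.h α) : Wt K V :=
  F.lex D.h α (D.lexData hs)

omit [FiniteDimensional K V] in
theorem lexW_w {α : ℝ} (hs : LexStrict F D.h α) (x : V) :
    (D.lexW hs).w x = α * F.w x + D.h x := rfl

theorem adapted_basis {α : ℝ} (hs : LexStrict F D.h α) : (D.lexW hs).Adapted D.leaf.basis := by
  refine D.leaf.adapted (g := fun γ => α * (ofLex γ).1 + ((ofLex (ofLex γ).2).1 : ℕ)) ?_ ?_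
  · intro γ hγ γ' hγ' h
    obtain ⟨x, hx, rfl⟩ := D.leaf.mem_img.1 hγ
    obtain ⟨y, hy, rfl⟩ := D.leaf.mem_img.1 hγ'
    obtain ⟨δ, hδ⟩ := D.exists_isLd hx
    obtain ⟨δ', hδ'⟩ := D.exists_isLd hy
    rcases Prod.Lex.le_iff.1 h with h | h
    · have h1 := hs x y hx hy (by rw [hδ.ld_eq, hδ'.ld_eq] at h; exact h)
      rw [hδ.h_eq, hδ'.h_eq] at h1
      rw [hδ.ld_eq, hδ'.ld_eq]
      exact h1.le
    · obtain ⟨h1, h2⟩ := h
      rw [hδ.ld_eq, hδ'.ld_eq] at h1 h2 ⊢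
      have h1' : F.w x = F.w y := h1
      have h4 : (deg δ.2 : ℝ) ≤ deg δ'.2 := by exact_mod_cast key2_deg_le h2
      show α * F.w x + (deg δ.2 : ℝ) ≤ α * F.w y + (deg δ'.2 : ℝ)
      have h5 : α * F.w x = α * F.w y := by rw [h1']
      linarith
  · intro x hx
    obtain ⟨δ, hδ⟩ := D.exists_isLd hx
    rw [lexW_w, hδ.ld_eq, hδ.h_eq]
    rfl

/-- **Total weight of the quotient filtration of the refinement on `V ⧸ F.sub τ`.** -/
theorem TQ_lexW {α : ℝ} (hs' : LexStrict F D.h α) (s : Finset ℝ) (τ : ℝ) (hs : ∀ a ∈ s, a < τ)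
    (hs2 : ∀ x : V, x ≠ 0 → F.w x < τ → F.w x ∈ s) :
    (D.lexW hs').TQ (F.sub τ) = α * F.TQ (F.sub τ) + ∑ a ∈ s, (ordSum (D.U a) : ℝ) := by
  classical
  have hb := D.adapted_basis hs'
  have hbF : F.Adapted D.leaf.basis := hb.of_lex hs'
  have hcomp := (F.step_sub τ).compat hbF
  rw [TQ_eq_sum hb hcomp, TQ_eq_sum hbF hcomp, Finset.mul_sum]
  simp_rw [lexW_w]
  rw [Finset.sum_add_distrib]
  congr 1
  have h1 := D.sum_img s τ hs hs2 (fun _ e => (e : ℝ))
  have h2 : ∑ a ∈ s, (ordSum (D.U a) : ℝ) =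
      ∑ a ∈ s, ∑ δ ∈ (leads_finite (D.U a)).toFinset, (deg δ.2 : ℝ) :=
    Finset.sum_congr rfl fun a _ => by rw [ordSum, Nat.cast_sum]
  rw [h2, ← h1]
  refine Finset.sum_bij (fun i _ => (i : ℝ ×ₗ (ℕ ×ₗ (ℕ ×ₗ Lex (Fin d → ℕ))))) ?_ ?_ ?_ ?_
  · intro i hi
    rw [Finset.mem_filter] at hi ⊢
    refine ⟨i.2, ?_⟩
    have hne := D.leaf.basis.ne_zero i
    obtain ⟨δ, hδ⟩ := D.exists_isLd hne
    have e := hδ.ld_eq
    rw [D.leaf.lead_basis] at e
    rw [e]
    have := hi.2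
    rw [F.mem_sub_of_ne hne, not_le] at this
    exact this
  · intro a _ b _ hab
    exact Subtype.ext hab
  · intro γ hγ
    rw [Finset.mem_filter] at hγ
    refine ⟨⟨γ, hγ.1⟩, ?_, rfl⟩
    rw [Finset.mem_filter]
    refine ⟨Finset.mem_univ _, ?_⟩
    have hne := D.leaf.basis.ne_zero ⟨γ, hγ.1⟩
    obtain ⟨δ, hδ⟩ := D.exists_isLd hne
    have e := hδ.ld_eq
    rw [D.leaf.lead_basis] at e
    simp only at e
    rw [F.mem_sub_of_ne hne, not_le]
    have := hγ.2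
    rw [e] at this
    exact this
  · intro i hi
    have hne := D.leaf.basis.ne_zero i
    obtain ⟨δ, hδ⟩ := D.exists_isLd hne
    have e := hδ.ld_eq
    rw [hδ.h_eq]
    rw [D.leaf.lead_basis] at e
    rw [e]
    rfl

end FD

end GrData

end Vale.Agent.P271.H207
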