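import Vale.Agent.P271.H207.GrLex

/-!
# P271 / COUNT-(a): the counting inequality for a graded ring (graded version of `GrRing`)

Here `τ M` and `θ M a` are only defined on the graded pieces `V M`, so that a trivialisation of the
line bundle near the point can be used (`τ` is then not a ring homomorphism with kernel `P` on the
whole graded ring, but only degree by degree).  Only the weights `a` in a given set `S` are used
(at a given point only finitely many graded pieces are free).
-/

set_option linter.all false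

open Finset Module

namespace Vale.Agent.P271.H207

open Vale.Agent.P271.F507 Vale.Agent.P271.Filt Vale.Agent.P271.Filt.Wt

section dim

variable {K : Type*} [Field K] {V : Type*} [AddCommGroup V] [Module K V] [FiniteDimensional K V]
  {F : Wt K V}

open Classical in
theorem finrank_sub {ι : Type*} [Fintype ι] {b : Basis ι K V} (hb : F.Adapted b) (a : ℝ) :
    finrank K (F.sub a) = (Finset.univ.filter (fun i => a ≤ F.w (b i))).card := by
  have hli : LinearIndependent K (fun j : {j : ι // a ≤ F.w (b j)} => b j) :=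
    b.linearIndependent.comp _ Subtype.val_injective
  have hset : F.sub a = Submodule.span K (Set.range (fun j : {j : ι // a ≤ F.w (b j)} => b j)) := by
    rw [hb.sub_eq_span]
    congr 1
    ext y
    constructor
    · rintro ⟨j, hj, rfl⟩
      exact ⟨⟨j, hj⟩, rfl⟩
    · rintro ⟨⟨j, hj⟩, rfl⟩
      exact ⟨j, hj, rfl⟩
  rw [hset, finrank_span_eq_card hli, Fintype.card_subtype]

open Classical in
theorem finrank_subGt {ι : Type*} [Fintype ι] {b : Basis ι K V} (hb : F.Adapted b) (a : ℝ) :
    finrank K (F.subGt a) = (Finset.univ.filter (fun i => a < F.w (b i))).card := by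
  have hli : LinearIndependent K (fun j : {j : ι // a < F.w (b j)} => b j) :=
    b.linearIndependent.comp _ Subtype.val_injective
  have hset : F.subGt a =
      Submodule.span K (Set.range (fun j : {j : ι // a < F.w (b j)} => b j)) := by
    apply le_antisymm
    · intro x hx
      rw [hb.mem_subGt_iff] at hx
      rw [← b.sum_repr x]
      refine Submodule.sum_mem _ fun i _ => ?_
      by_cases hi : b.repr x i = 0
      · rw [hi, zero_smul]; exact Submodule.zero_mem _
      · exact Submodule.smul_mem _ _ (Submodule.subset_span ⟨⟨i, hx i hi⟩, rfl⟩)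
    · rw [Submodule.span_le]
      rintro _ ⟨⟨j, hj⟩, rfl⟩
      exact fun _ => hj
  rw [hset, finrank_span_eq_card hli, Fintype.card_subtype]

/-- the dimensions of the graded pieces below `t` add up to the codimension of `F.sub t` -/
theorem sum_finrank_gr (s : Finset ℝ) (t : ℝ) (hs : ∀ a ∈ s, a < t)
    (hs2 : ∀ x : V, x ≠ 0 → F.w x < t → F.w x ∈ s) :
    ∑ a ∈ s, ((finrank K (F.sub a) : ℝ) - finrank K (F.subGt a)) =
      (finrank K V : ℝ) - finrank K (F.sub t) := by
  classical
  have hb := F.adapted_adb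
  have h1 : ∀ a, ((finrank K (F.sub a) : ℝ) - finrank K (F.subGt a)) =
      ((Finset.univ.filter (fun i => F.w (F.adb i) = a)).card : ℝ) := by
    intro a
    rw [finrank_sub hb, finrank_subGt hb]
    have : (Finset.univ.filter (fun i => a ≤ F.w (F.adb i))).card =
        (Finset.univ.filter (fun i => F.w (F.adb i) = a)).card +
          (Finset.univ.filter (fun i => a < F.w (F.adb i))).card := by
      rw [← Finset.card_union_of_disjoint]
      · congr 1
        ext i
        simp only [Finset.mem_filter, Finset.mem_univ, true_and, Finset.mem_union]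
        rw [le_iff_eq_or_lt, eq_comm]
      · rw [Finset.disjoint_left]
        intro i hi hi'
        rw [Finset.mem_filter] at hi hi'
        rw [hi.2] at hi'
        exact lt_irrefl _ hi'.2
    rw [this]
    push_cast
    ring
  simp_rw [h1]
  rw [← Nat.cast_sum]
  have h2 : ∑ a ∈ s, (Finset.univ.filter (fun i => F.w (F.adb i) = a)).card =
      (Finset.univ.filter (fun i => F.w (F.adb i) < t)).card := by
    rw [Finset.card_eq_sum_card_fiberwise (f := fun i => F.w (F.adb i)) (t := s)]
    · refine Finset.sum_congr rfl fun a ha => ?_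
      congr 1
      ext i
      simp only [Finset.mem_filter, Finset.mem_univ, true_and]
      exact ⟨fun h => ⟨h ▸ hs a ha, h⟩, fun h => h.2⟩
    · intro i hi
      have hi' := (Finset.mem_filter.1 (Finset.mem_coe.1 hi)).2
      exact hs2 _ (F.adb.ne_zero i) hi'
  rw [h2, finrank_sub hb]
  have h3 : (Finset.univ.filter (fun i => F.w (F.adb i) < t)).card +
      (Finset.univ.filter (fun i => t ≤ F.w (F.adb i))).card = finrank K V := by
    have h4 := Finset.card_filter_add_card_filter_not (s := Finset.univ)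
      (fun i => F.w (F.adb i) < t)
    simp only [not_lt] at h4
    rw [h4, Finset.card_univ, Fintype.card_fin]
  have h5 : (((Finset.univ.filter (fun i => F.w (F.adb i) < t)).card +
      (Finset.univ.filter (fun i => t ≤ F.w (F.adb i))).card : ℕ) : ℝ) = (finrank K V : ℕ) :=
    congrArg _ h3
  push_cast at h5
  linarith

theorem finrank_range_theta {E : Type*} [AddCommGroup E] [Module K E] {a : ℝ}
    (θ : F.sub a →ₗ[K] E) (hker : ∀ x : F.sub a, θ x = 0 ↔ (x : V) ∈ F.subGt a) :
    (finrank K (LinearMap.range θ) : ℝ) = (finrank K (F.sub a) : ℝ) - finrank K (F.subGt a) := by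
  have h := LinearMap.finrank_range_add_finrank_ker θ
  have h2 : finrank K (LinearMap.ker θ) = finrank K (F.subGt a) := by
    have e : LinearMap.ker θ = (F.subGt a).comap (F.sub a).subtype := by
      ext x
      rw [LinearMap.mem_ker, hker, Submodule.mem_comap, Submodule.subtype_apply]
    rw [e]
    exact (Submodule.comapSubtypeEquivOfLe (F.subGt_le_sub a)).finrank_eq
  rw [h2] at h
  have h3 : ((finrank K (LinearMap.range θ) + finrank K (F.subGt a) : ℕ) : ℝ) =
      (finrank K (F.sub a) : ℕ) := congrArg _ h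
  push_cast at h3
  linarith

end dim

/-- Graded linear series `V M ⊆ A` with filtrations `F M`; `τ M` = restriction to `W` and Taylor
expansion at a point; `θ M a`, `a ∈ S` = coordinates of the graded piece of weight `a` of `V M`. -/
structure GrSys (K A : Type*) [Field K] [CommRing A] [Algebra K A] (d : ℕ) (S : Set ℝ) where
  V : ℕ → Submodule K A
  fin : ∀ M, FiniteDimensional K (V M)
  mul_mem : ∀ M M' : ℕ, ∀ g ∈ V M', ∀ s ∈ V M, g * s ∈ V (M + M')
  F : ∀ M, Wt K (V M)
  τ : ∀ M, V M →ₗ[K] MvPowerSeries (Fin d) K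
  r : ℝ → ℕ
  θ : ∀ (M : ℕ) (a : ℝ), (F M).sub a →ₗ[K] (Fin (r a) → MvPowerSeries (Fin d) K)
  ker : ∀ (M : ℕ), ∀ a ∈ S, ∀ (x : (F M).sub a), θ M a x = 0 ↔ (x : V M) ∈ (F M).subGt a
  mul_sub : ∀ (M M' : ℕ) (a : ℝ) (g : V M') (s : (F M).sub a),
    (⟨(g : A) * ((s : V M) : A), mul_mem M M' g g.2 (s : V M) (s : V M).2⟩ : V (M + M')) ∈
      (F (M + M')).sub a
  θ_mul : ∀ (M M' : ℕ), ∀ a ∈ S, ∀ (g : V M') (s : (F M).sub a),
    θ (M + M') a ⟨⟨(g : A) * ((s : V M) : A), mul_mem M M' g g.2 (s : V M) (s : V M).2⟩,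
      mul_sub M M' a g s⟩ = fun y => τ M' g * θ M a s y

namespace GrSys

variable {K A : Type*} [Field K] [CommRing A] [Algebra K A] {d : ℕ} {S : Set ℝ}
  (D : GrSys K A d S)

instance (M : ℕ) : FiniteDimensional K (D.V M) := D.fin M

/-- the image of `V M` in `k[[x]]` -/
noncomputable def G (M : ℕ) : Submodule K (MvPowerSeries (Fin d) K) :=
  LinearMap.range (D.τ M)

instance (M : ℕ) : FiniteDimensional K (D.G M) := by
  unfold G; infer_instance

/-- the image of the graded piece of weight `a` of `V M` in `k[[x]] ^ r` -/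
noncomputable def UU (M : ℕ) (a : ℝ) : Submodule K (Fin (D.r a) → MvPowerSeries (Fin d) K) :=
  LinearMap.range (D.θ M a)

instance finUU (M : ℕ) (a : ℝ) : FiniteDimensional K (D.UU M a) := by
  unfold UU; infer_instance

theorem mul_mem_U (M M' : ℕ) {a : ℝ} (ha : a ∈ S) (g : MvPowerSeries (Fin d) K)
    (hg : g ∈ D.G M') (f : Fin (D.r a) → MvPowerSeries (Fin d) K) (hf : f ∈ D.UU M a) :
    (fun y => g * f y) ∈ D.UU (M + M') a := by
  obtain ⟨t, rfl⟩ := hg
  obtain ⟨x, rfl⟩ := hf
  exact ⟨_, D.θ_mul M M' a ha t x⟩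

theorem finrank_UU (M : ℕ) {a : ℝ} (ha : a ∈ S) :
    (finrank K (D.UU M a) : ℝ) =
      (finrank K ((D.F M).sub a) : ℝ) - finrank K ((D.F M).subGt a) :=
  finrank_range_theta (D.θ M a) (D.ker M a ha)

open Classical in
/-- coordinates of the graded pieces of `V m`, if all weights of `V m` are in `S` -/
noncomputable def gr (m : ℕ) (hm : ∀ x : D.V m, x ≠ 0 → (D.F m).w x ∈ S) :
    GrData (D.F m) d where
  r := D.r
  θ a := if a ∈ S then D.θ m a else 0
  ker a x := by
    by_cases ha : a ∈ S
    · rw [if_pos ha]; exact D.ker m a ha x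
    · rw [if_neg ha]
      simp only [LinearMap.zero_apply, true_iff]
      intro hx
      refine lt_of_le_of_ne (x.2 hx) (fun h => ha ?_)
      have h2 := hm _ hx
      rwa [← h] at h2

open Classical in
theorem gr_U (m : ℕ) (hm : ∀ x : D.V m, x ≠ 0 → (D.F m).w x ∈ S) {a : ℝ} (ha : a ∈ S) :
    (D.gr m hm).U a = D.UU m a := by
  show LinearMap.range (if a ∈ S then D.θ m a else 0) = _
  rw [if_pos ha]
  rfl

theorem ordSum_congr {k : Type*} [Field k] {d r : ℕ}
    {U U' : Submodule k (Fin r → MvPowerSeries (Fin d) k)} [FiniteDimensional k U]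
    [FiniteDimensional k U'] (h : U = U') : ordSum U = ordSum U' := by
  subst h; rfl

/-- **The counting inequality** for a graded system. -/
theorem count (hd : 0 < d) (t : ℝ) (r0 r1 : ℕ)
    (hcube : ∀ ε : Fin d → ℕ, (∀ j, ε j ≤ 1) → ∃ g ∈ D.G r1, IsLead1 g ε)
    (hG : D.G r0 ≠ ⊥) (k m : ℕ) (hk : k * (r0 + r1) ≤ m) {α : ℝ}
    (hm : ∀ x : D.V m, x ≠ 0 → (D.F m).w x ∈ S)
    (hS : ∀ j < k, ∀ x : D.V (m - (j + 1) * (r0 + r1)), x ≠ 0 →
      (D.F (m - (j + 1) * (r0 + r1))).w x < t →
      (D.F (m - (j + 1) * (r0 + r1))).w x ∈ S)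
    (hα : LexStrict (D.F m) (D.gr m hm).h α) :
    (d : ℝ) * ((d.factorial : ℝ) ^ ((1 : ℝ) / d)) *
        ((finrank K (D.G r0) : ℝ) ^ ((1 : ℝ) / d)) *
        ∑ j ∈ range k, ((finrank K (D.V (m - (j + 1) * (r0 + r1))) : ℝ) -
          finrank K ((D.F (m - (j + 1) * (r0 + r1))).sub t))
      - (d + 1) * ((finrank K (D.V m) : ℝ) - finrank K ((D.F m).sub t)) ≤
    ((D.gr m hm).lexW hα).TQ ((D.F m).sub t) - α * (D.F m).TQ ((D.F m).sub t) := by
  classical
  -- the finite set of the jumps below `t` of the levels used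
  set s : Finset ℝ := (D.F m).finite_values.toFinset.filter (fun a => a < t) ∪
    (range k).biUnion (fun j => (D.F (m - (j + 1) * (r0 + r1))).finite_values.toFinset.filter
      (fun a => a < t)) with hs
  have hs1 : ∀ a ∈ s, a < t := by
    intro a ha
    rcases Finset.mem_union.1 ha with h | h
    · exact (Finset.mem_filter.1 h).2
    · obtain ⟨M, _, h⟩ := Finset.mem_biUnion.1 h
      exact (Finset.mem_filter.1 h).2
  have hsS : ∀ a ∈ s, a ∈ S := by
    intro a ha
    rcases Finset.mem_union.1 ha with h | h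
    · obtain ⟨h1, h2⟩ := Finset.mem_filter.1 h
      rw [Set.Finite.mem_toFinset] at h1
      obtain ⟨x, hx, rfl⟩ := h1
      exact hm x hx
    · obtain ⟨j, hj, h⟩ := Finset.mem_biUnion.1 h
      obtain ⟨h1, h2⟩ := Finset.mem_filter.1 h
      rw [Set.Finite.mem_toFinset] at h1
      obtain ⟨x, hx, rfl⟩ := h1
      exact hS j (Finset.mem_range.1 hj) x hx h2
  have hs2m : ∀ x : D.V m, x ≠ 0 → (D.F m).w x < t → (D.F m).w x ∈ s := by
    intro x hx hlt
    refine Finset.mem_union_left _ (Finset.mem_filter.2 ⟨?_, hlt⟩)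
    rw [Set.Finite.mem_toFinset]
    exact ⟨x, hx, rfl⟩
  have hs2 : ∀ j < k, ∀ x : D.V (m - (j + 1) * (r0 + r1)), x ≠ 0 →
      (D.F (m - (j + 1) * (r0 + r1))).w x < t →
      (D.F (m - (j + 1) * (r0 + r1))).w x ∈ s := by
    intro j hj x hx hlt
    refine Finset.mem_union_right _ (Finset.mem_biUnion.2 ⟨j, Finset.mem_range.2 hj,
      Finset.mem_filter.2 ⟨?_, hlt⟩⟩)
    rw [Set.Finite.mem_toFinset]
    exact ⟨x, hx, rfl⟩
  have hdim : ∀ M, (∀ x : D.V M, x ≠ 0 → (D.F M).w x < t → (D.F M).w x ∈ s) →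
      ∑ a ∈ s, (finrank K (D.UU M a) : ℝ) =
      (finrank K (D.V M) : ℝ) - finrank K ((D.F M).sub t) := by
    intro M hM
    rw [← sum_finrank_gr s t hs1 hM]
    exact Finset.sum_congr rfl fun a ha => D.finrank_UU M (hsS a ha)
  have key := count_leads hd s D.r D.UU D.G
    (fun M M' a ha g hg f hf => D.mul_mem_U M M' (hsS a ha) g hg f hf) r0 r1 hcube hG k m hk
  have hTQ : ((D.gr m hm).lexW hα).TQ ((D.F m).sub t) = α * (D.F m).TQ ((D.F m).sub t) +
      ∑ a ∈ s, (ordSum (D.UU m a) : ℝ) := by
    rw [(D.gr m hm).TQ_lexW hα s t hs1 hs2m]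
    congr 1
    refine Finset.sum_congr rfl fun a ha => ?_
    congr 1
    exact @ordSum_congr K _ d (D.r a) ((D.gr m hm).U a) (D.UU m a)
      ((D.gr m hm).finiteDimensional_U a) (D.finUU m a) (D.gr_U m hm (hsS a ha))
  rw [hTQ, add_sub_cancel_left]
  refine le_trans (le_of_eq ?_) key
  rw [hdim m hs2m]
  congr 2
  refine Finset.sum_congr rfl fun j hj => ?_
  rw [hdim _ (hs2 j (Finset.mem_range.1 hj))]

end GrSys

end Vale.Agent.P271.H207
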